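import Vale.Agent.P283R.Ft.St2
import Vale.Agent.P283R.Cf.Dwnr
import Vale.Agent.P287D.Iso.Can

/-!
# P283R, block FT: small birational morphisms are crepant (row `CRP`)
-/

open Set CategoryTheory AlgebraicGeometry

noncomputable section

namespace Vale.Agent.P283R.Ft

open Vale.Agent.P287D Vale.Agent.P297Z
open Vale.Agent.P289 (Pt DForm dimension)
open Vale.Agent.P283M Vale.Agent.P283M.Stm Vale.Agent.P283M.Stm.Var
open Vale.Agent.P283M.Br (Dom har plc mdc frm ffd pl_of loc_uniq)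
open Vale.Agent.P283R.Et (Pe)
open Cf Cf.Dw

/-- the centre of a place on the target is the image of its centre on the source -/
theorem C19.dom {X' X : Var} {π : X'.X ⟶ X.X} {p : X.K →+* X'.K} (pe : Pe π p) (h : Semi p)
    {P : Pl X.K} {x : Pt X'.X} (a : Dom (h.pl P).ring x) : Dom P.ring (x.map π) := fun g r =>
  ⟨h.mem_pl.1 (a _ (pe.reg r)).1, fun g0 b => ((pe.un r).1 ⟨(map_ne_zero p).2 g0, pe.reg r,
    (a _ (pe.reg r)).2 ((map_ne_zero p).2 g0) (map_inv₀ p g ▸ h.mem_pl.2 b)⟩).2.2⟩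

/-- **CRP** -/
theorem crp19 : CRP := by
  intro X' X π p d ω ω' he pe hc _ hd hd' hω hω'
  have h : Semi (p : X.K →+* X'.K) :=
    ⟨p.surjective, fun c => ⟨c, (pe.cst he c).symm⟩, fun c => ⟨c, pe.cst he c⟩⟩
  obtain ⟨j₀, a0, fr⟩ := frm X _ (ffd X _ hd) ω hω
  obtain ⟨j₁, a1, fr'⟩ := frm X' _ (ffd X' _ hd') ω' hω'
  have p0 : ∀ {g : X.K}, g ≠ 0 → p g ≠ 0 := fun z => (map_ne_zero p).2 z
  have op : ∀ (P : Pl X.K) g, (h.pl P).ord (p g) = P.ord g := h.ord_pl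
  obtain ⟨j, j0, hj⟩ : ∃ j : X'.K, j ≠ 0 ∧ ∀ P : Pl X.K,
      cn X'.K d (h.pl P) + (h.pl P).ord j₁ = cn X.K d P + P.ord j₀ + (h.pl P).ord j := by
    have z := mul_ne_zero (h.cf_ne d) (p0 a0)
    refine ⟨j₁ / (h.cf d * p j₀), div_ne_zero a1 z, fun P => ?_⟩
    have := congrFun (h.pb_cn d) (h.pl P)
    rw [h.pb_pl, Pi.add_apply, dv_apply] at this
    rw [Pl.ord_div _ a1 z, Pl.ord_mul _ (h.cf_ne d) (p0 a0), op, this]
    push_cast
    ring
  let c : X'.PrimeDiv → X.PrimeDiv := fun E => ⟨E.1.map π, hc E⟩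
  have ex : ∀ E : X'.PrimeDiv, ∃ P : Pl X.K, Dom (h.pl P).ring E.1 := fun E => by
    obtain ⟨Q, e, -⟩ := pl_of plc E
    obtain ⟨P, rfl⟩ := h.pl.surjective Q
    exact ⟨P, e.dom⟩
  have k : ∀ E, (∀ a, ord (p a) E = ord a (c E)) ∧
      formOrd ω' (RingEquiv.refl _) E = formOrd ω (RingEquiv.refl _) (c E) + ord j E := fun E => by
    obtain ⟨P, e⟩ := ex E
    obtain ⟨o', f'⟩ := at_pl fr' e
    obtain ⟨o, f⟩ := at_pl (E := c E) fr (C19.dom pe h e)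
    refine ⟨fun a => by rw [o', o, op], ?_⟩
    rw [hj, ← f, ← o'] at f'
    exact_mod_cast f'
  refine ⟨j, c, j0, fun E E' z => ?_, fun E => ⟨rfl, k E⟩, fun s C C' hC hP => ?_⟩
  · obtain ⟨P, e⟩ := ex E
    obtain ⟨P', e'⟩ := ex E'
    obtain ⟨Q, q, -⟩ := pl_of plc (c E')
    have b : Dom P.ring (c E').1 := z ▸ C19.dom pe h e
    obtain rfl := (Br.pl_eq q b).symm.trans (Br.pl_eq q (C19.dom pe h e'))
    exact Subtype.ext (uq e e')
  have le : ∀ (x : Pt X'.X) m g, LocalEq (logCan ω C) m g (x.map π) →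
      LocalEq (logCan ω' C') m (p g * j ^ m) x := fun x m g e =>
    ⟨mul_ne_zero (p0 e.1) (pow_ne_zero _ j0), fun E s => by
      obtain ⟨Q, -, o⟩ := pl_of plc E
      have := e.2 (c E) (s.map π.continuous)
      rw [o, Pl.ord_mul _ (p0 e.1) (pow_ne_zero _ j0), Pl.ord_pow, ← o, ← o, (k E).1, logCan,
        (k E).2, hC]
      rw [logCan] at this
      push_cast
      rw [this]
      ring⟩
  refine ⟨fun E _ => hC E ▸ hP.1 _ trivial, fun x _ => ?_, fun M E _ l b l0 hb => ?_⟩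
  · obtain ⟨m, g, m0, e⟩ := hP.2.1 (Pt.map π x) trivial
    exact ⟨m, _, m0, le x m g e⟩
  obtain ⟨⟨Q, e⟩, o⟩ := plc X' M.Y M.pull (mdc X' M).1 E
  have dm := (mdc X' M).2 E Q e
  obtain ⟨P, rfl⟩ := h.pl.surjective Q
  obtain ⟨m, g, m0, q⟩ := hP.2.1 ((E.1.map M.π).map π) trivial
  have u := loc_uniq har plc hb (le _ m g q) dm
  have v := val_pair fr hP trivial (C19.dom pe h dm) m0 q
  have l1 : (l : ℝ) ≠ 0 := Nat.cast_ne_zero.2 l0.ne'
  have m1 : (m : ℝ) ≠ 0 := Nat.cast_ne_zero.2 m0.ne'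
  rw [Pl.ord_mul _ (p0 q.1) (pow_ne_zero _ j0), Pl.ord_pow, op] at u
  have u' : ((h.pl P).ord b : ℝ) / l = P.ord g / m + (h.pl P).ord j := by
    push_cast at u
    field_simp
    linarith
  rw [fr' _ _ E _ e (o _ e), o _ e, hj, u']
  convert v using 2
  ring

end Vale.Agent.P283R.Ft
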