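import Vale.Agent.P283R.Ft.St
import Vale.Agent.P283R.Eb.Amp
import Vale.Agent.P283R.To.GlSum

/-!
# P283R, block FT: an ample divisor minus a pull back is ample over the base
-/

open Set CategoryTheory AlgebraicGeometry

noncomputable section

namespace Vale.Agent.P283R.Ft

open Vale.Agent.P289 (Pt)
open Vale.Agent.P283M Vale.Agent.P283M.Stm Vale.Agent.P283M.Stm.Var Vale.Agent.P283M.Br
open Vale.Agent.P283R.Gl Vale.Agent.P283R.Eb.Amp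

namespace A9

/-- the dual of a free system is generated by sections over an affine open set -/
theorem clr {Z : Var} {t : Finset Z.K} {U : Z.X.Opens} (hU : IsAffineOpen U) {z : Pt Z.X}
    (hz : z ∈ U) {ρ₀ : Z.K} (h0 : GenAt t ρ₀ z) : ∃ V : Z.X.Opens, z ∈ V ∧ V ≤ U ∧ ∀ j : ℕ,
      ∃ c : Z.K, c ≠ 0 ∧ ∀ p ∈ U, ∀ ρ, GenAt t ρ p →
        RegAt (c * ρ ^ j) p ∧ (p ∈ V → UnAt (c * ρ ^ j) p) := by
  obtain ⟨b, b1, b2⟩ := hU.exists_basicOpen_le (V := ⟨_, open_gen t ρ₀⟩) ⟨z, h0⟩ hz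
  have : Nonempty U := ⟨⟨z, hz⟩⟩
  obtain ⟨β, r, u⟩ : ∃ β : Z.K, (∀ y ∈ U, RegAt β y) ∧
      ∀ y ∈ U, UnAt β y ↔ y ∈ Z.X.basicOpen b :=
    ⟨_, Am.mem_reg.1 (Am.secK_reg _ b), fun y hy => Am.un_secK _ hy⟩
  have β0 : β ≠ 0 := ((u z hz).2 b2).1
  refine ⟨_, b2, Z.X.basicOpen_le b, fun j => ?_⟩
  choose N hN using fun ρ : Z.K =>
    bound (c := fun y : Z.PrimeDiv => (ord ((ρ / ρ₀) ^ j) y : ℚ))
      ((Br.fin Z ((ρ / ρ₀) ^ j)).subset fun y a => by simpa using a)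
  refine ⟨β ^ t.sup N / ρ₀ ^ j, div_ne_zero (pow_ne_zero _ β0) (pow_ne_zero _ h0.2.1),
    fun p hp ρ hρ => ?_⟩
  have w0 : (ρ / ρ₀) ^ j ≠ 0 := pow_ne_zero _ (div_ne_zero hρ.2.1 h0.2.1)
  rw [show β ^ t.sup N / ρ₀ ^ j * ρ ^ j = β ^ t.sup N * (ρ / ρ₀) ^ j by rw [div_pow]; ring]
  refine ⟨reg_o fun y hy => ?_, fun a =>
    (UnAt.pow ((u p hp).2 a) _).mul (UnAt.pow (GenAt.un (b1 a) hρ) _)⟩
  have yU : y.1 ∈ U := hy.mem_open U.isOpen hp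
  rw [o_mul (pow_ne_zero _ β0) w0, o_pow β0]
  by_cases c : UnAt β y.1
  · have g : GenAt t ρ y.1 := ⟨hρ.1, hρ.2.1, fun b hb => reg_gen hy (hρ.2.2 b hb)⟩
    rw [o_un c specializes_rfl, o_un (UnAt.pow (GenAt.un (b1 ((u _ yU).1 c)) g) j) specializes_rfl]
    simp
  · have k := mul_le_mul_of_nonneg_left (o_pos (r _ yU) β0 c) (Nat.cast_nonneg (t.sup N) : (0 : ℚ) ≤ _)
    have l : (N ρ : ℚ) ≤ (t.sup N : ℕ) := Nat.cast_le.2 (Finset.le_sup hρ.1)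
    linarith [hN ρ y]

theorem un_left {X : Var} {a b : X.K} {x : Pt X.X} (ha : RegAt a x) (hb : RegAt b x)
    (h : UnAt (a * b) x) : UnAt a x :=
  ⟨left_ne_zero_of_mul h.1, ha, by
    have := reg_mul hb h.2.2
    rwa [mul_inv, mul_left_comm, mul_inv_cancel₀ (right_ne_zero_of_mul h.1), mul_one] at this⟩

end A9

open A9

theorem amp9 : AMP := by
  intro Y Z h q t t' D M a b θ hq ⟨bt, H⟩ bt' M0 a0 loc
  refine ⟨M, M0, fun y => ?_, fun U hU x hx => ?_⟩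
  · obtain ⟨σ, hσ⟩ := bt y trivial
    obtain ⟨ρ, hρ⟩ := bt' (y.map h) trivial
    exact ⟨_, loc y σ ρ hσ hρ⟩
  obtain ⟨ρ₀, h0⟩ := bt' (Pt.map h x) trivial
  obtain ⟨V, xV, VU, hc⟩ := clr hU hx h0
  obtain ⟨k, α, W, k0, hW, xW, WV, sa, eW⟩ := H (h ⁻¹ᵁ V) x xV
  obtain ⟨c, c0, hc⟩ := hc (k * b)
  obtain ⟨σ₀, g0⟩ := bt x trivial
  have α0 : α ≠ 0 := (div_ne_zero_iff.1 ((eW x).1 xW σ₀ g0).1).1
  have θ0 : θ ≠ 0 := left_ne_zero_of_mul (div_ne_zero_iff.1 (loc x σ₀ ρ₀ g0 h0).1).1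
  have s0 : α ^ a * q c / θ ^ k ≠ 0 :=
    div_ne_zero (mul_ne_zero (pow_ne_zero _ α0) ((map_ne_zero q).2 c0)) (pow_ne_zero _ θ0)
  have key : ∀ (y : Pt Y.X) σ ρ, GenAt t σ y → GenAt t' ρ (y.map h) →
      (α / σ ^ k) ^ a * q (c * ρ ^ (k * b)) ≠ 0 ∧ ∀ E : Y.PrimeDiv, E.1 ⤳ y →
        (ord (α ^ a * q c / θ ^ k) E : ℚ) + k * M * D E =
          ord ((α / σ ^ k) ^ a * q (c * ρ ^ (k * b))) E := fun y σ ρ hσ hρ => by
    have l := loc y σ ρ hσ hρ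
    have e : (α / σ ^ k) ^ a * q (c * ρ ^ (k * b)) =
        α ^ a * q c / θ ^ k * (θ * q ρ ^ b / σ ^ a) ^ k := by
      have := hσ.2.1
      rw [map_mul, map_pow]
      field_simp
      ring
    rw [e]
    refine ⟨mul_ne_zero s0 (pow_ne_zero _ l.1), fun E hE => ?_⟩
    rw [o_mul s0 (pow_ne_zero _ l.1), o_pow l.1, l.2 E hE, mul_assoc]
  refine ⟨k, α ^ a * q c / θ ^ k, W, k0, fun E hE => ?_, hW, xW,
    fun x' => ⟨fun w => ?_, fun ⟨w, e⟩ => ?_⟩⟩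
  · obtain ⟨σ, hσ⟩ := bt E.1 trivial
    obtain ⟨ρ, hρ⟩ := bt' (E.1.map h) trivial
    obtain ⟨n0, e⟩ := key _ σ ρ hσ hρ
    rw [e E specializes_rfl]
    have r := reg_mul (reg_pow (sa _ trivial σ hσ) a) (hq.reg (hc _ hE ρ hρ).1)
    by_cases u : UnAt ((α / σ ^ k) ^ a * q (c * ρ ^ (k * b))) E.1
    · exact (o_un u specializes_rfl).ge
    · exact zero_le_one.trans (o_pos r n0 u)
  · obtain ⟨σ, hσ⟩ := bt x' trivial
    obtain ⟨ρ, hρ⟩ := bt' (Pt.map h x') trivial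
    have xU : x' ∈ h ⁻¹ᵁ U := VU (WV w)
    refine ⟨xU, inv_ne_zero s0, fun E hE => ?_⟩
    have e := (key _ σ ρ hσ hρ).2 E hE
    rw [o_un ((UnAt.pow ((eW x').1 w σ hσ) a).mul
      ((hq.un (hc _ xU ρ hρ).1).2 ((hc _ xU ρ hρ).2 (WV w)))) hE] at e
    rw [o_inv s0]
    push_cast
    linarith
  · obtain ⟨σ, hσ⟩ := bt x' trivial
    obtain ⟨ρ, hρ⟩ := bt' (Pt.map h x') trivial
    obtain ⟨n0, e'⟩ := key _ σ ρ hσ hρ
    have u := un_o n0 fun E hE => by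
      have k1 := e.2 E hE
      rw [o_inv s0] at k1
      push_cast at k1
      linarith [e' E hE]
    have r := sa _ trivial σ hσ
    have v := un_left (reg_pow r a) (hq.reg (hc _ w ρ hρ).1) u
    obtain ⟨a, rfl⟩ := Nat.exists_eq_succ_of_ne_zero a0.ne'
    rw [pow_succ'] at v
    exact (eW x').2 ((nv_iff hσ).2 (un_left r (reg_pow r a) v))

end Vale.Agent.P283R.Ft
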