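import Vale.Agent.P283R.Ft.St
import Vale.Agent.P283R.Br.Idn
import Vale.Agent.P283R.To.GlSum

/-!
# P283R, block FT: a general member of a free system (row `BER`)
-/

open Set CategoryTheory AlgebraicGeometry

noncomputable section

namespace Vale.Agent.P283R.Ft

open Vale.Agent.P287D Vale.Agent.P297Z
open Vale.Agent.P289 (Pt St toRat val DForm dimension)
open Vale.Agent.P283M Vale.Agent.P283M.Stm Vale.Agent.P283M.Stm.Var
open Vale.Agent.P283M.Br (Dom har fin plc mdc mod frm ffd pl_of dom_S loc_uniq GenAt Bpf)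
open Vale.Agent.P283R.Et (Pe)
open Cf Cf.Dw

namespace B11

theorem pe_id (X : Var) : Pe (𝟙 X.X) (RingHom.id X.K) := fun y a => by
  rw [Scheme.Hom.stalkMap_id]
  rfl

/-- charts for the pair and the system -/
theorem cht {X : Var} {n : ℕ} {ω : DForm ℂ X.K (n + 1)} {C : X.QDiv} {t : Finset X.K} {j : X.K}
    (hK : FF X.K (n + 1)) (fr : Br.Frm ω j)
    (hC : ∀ x, ∃ m g, 0 < m ∧ LocalEq (logCan ω C) m g x) (ht : Bpf t ⊤) :
    ∃ (ι : Type) (_ : Fintype ι) (W : ι → X.X.Opens) (v : ι → Finset X.K) (m : ι → ℕ)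
      (a τ : ι → X.K), (∀ x : Pt X.X, ∃ i, x ∈ W i) ∧ ∀ i, 0 < m i ∧ a i ≠ 0 ∧ τ i ≠ 0 ∧
        (∀ b ∈ v i, ∀ y ∈ W i, RegAt b y) ∧
        (∀ P : Pl X.K, (∀ b ∈ v i, b ∈ P.ring) → ∃ x ∈ W i, Dom P.ring x) ∧
        ∀ x ∈ W i, LocalEq (logCan ω C) (m i) (a i) x ∧ GenAt t (τ i) x := by
  have k : ∀ y : Pt X.X, ∃ (W : X.X.Opens) (v : Finset X.K) (m : ℕ) (a τ : X.K), y ∈ W ∧ 0 < m ∧
      a ≠ 0 ∧ τ ≠ 0 ∧ (∀ b ∈ v, ∀ y ∈ W, RegAt b y) ∧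
      (∀ P : Pl X.K, (∀ b ∈ v, b ∈ P.ring) → ∃ x ∈ W, Dom P.ring x) ∧
      ∀ x ∈ W, LocalEq (logCan ω C) m a x ∧ GenAt t τ x := fun y => by
    obtain ⟨m, a, m0, ha⟩ := hC y
    obtain ⟨τ, hτ⟩ := ht y trivial
    obtain ⟨_, ⟨W, hW, rfl⟩, yW, le⟩ := X.X.isBasis_affineOpens.exists_subset_of_mem_open
      (a := y) (mem_inter ha hτ) ((P283R.Br.open_localEq hK fr C m a).inter (Gl.open_gen t τ))
    obtain ⟨v, v1, v2⟩ := Cht.coord P283R.Br.ctr_id (pe_id X) hW yW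
    exact ⟨W, v, m, a, τ, yW, m0, ha.1, hτ.2.1, v1, v2, fun x hx => le hx⟩
  choose W v m a τ h1 h2 using k
  obtain ⟨T, hT⟩ := (isCompact_univ (X := X.X)).elim_finite_subcover
    (fun y : Pt X.X => (W y : Set X.X)) (fun y => (W y).isOpen)
    fun y _ => mem_iUnion.2 ⟨y, h1 y⟩
  refine ⟨T, inferInstance, fun i => W i, fun i => v i, fun i => m i, fun i => a i, fun i => τ i,
    fun y => ?_, fun i => h2 i⟩
  obtain ⟨z, z1, z2⟩ := mem_iUnion₂.1 (hT (mem_univ y))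
  exact ⟨⟨z, z1⟩, z2⟩

end B11

open B11 in
/-- **BER** -/
theorem ber11 : BER := by
  intro X d N ω C t hd hdim hω hC ht N2
  obtain ⟨n, rfl⟩ := Nat.exists_eq_add_of_le' hd
  have hK := ffd X _ hdim
  obtain ⟨j, j0, fr⟩ := frm X _ hK ω hω
  obtain ⟨y, Dy, fy, ey⟩ := Cb.exists_cn hK
  obtain ⟨ι, _, W, v, m, a, τ, cov, ch⟩ := cht hK fr (fun x => hC.2.1 x trivial) ht
  have m0 : ∀ i, (0 : ℝ) < m i := fun i => Nat.cast_pos.2 (ch i).1
  have N0 : 0 < N := by omega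
  have N1 : (2 : ℝ) ≤ N := by exact_mod_cast N2
  have mz : ∀ {σ x} {P : Pl X.K}, GenAt t σ x → Dom P.ring x → (P.mz t : ℝ) = -P.ord σ :=
    fun h hP => h.mx hP
  obtain ⟨φ, φ0, lo, hi⟩ := Stp.gen hK ⟨Dy, fy⟩ (ht.nz (x := genericPoint X.X) trivial) 1 v j
    (fun i => a i / τ i ^ m i) (-1) fun i => (m i : ℝ)⁻¹
  have key : ∀ i (w : Pl X.K), (∀ b ∈ v i, b ∈ w.ring) →
      0 < 1 + (cn X.K (n + 1) w + w.ord j - w.ord (a i) / m i) ∧ (w.mz t : ℝ) = -w.ord (τ i) ∧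
      gl y 1 t w - -1 * w.ord j - (m i : ℝ)⁻¹ * w.ord (a i / τ i ^ m i) =
        1 + (cn X.K (n + 1) w + w.ord j - w.ord (a i) / m i) := fun i w hw => by
    obtain ⟨x, s1, s2⟩ := (ch i).2.2.2.2.1 w hw
    obtain ⟨s3, s4⟩ := (ch i).2.2.2.2.2 x s1
    refine ⟨val_pair fr hC trivial s2 (ch i).1 s3, mz s4 s2, ?_⟩
    rw [gl, mz s4 s2, ey, Pl.ord_div _ s3.1 (pow_ne_zero _ s4.2.1), Pl.ord_pow]
    have := (m0 i).ne'
    push_cast
    field_simp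
    ring
  let μ : ι → ℕ := fun i => N * m i
  let G : ι → X.K := fun i => a i ^ N * (φ / τ i) ^ m i
  have μ0 : ∀ i, 0 < μ i := fun i => Nat.mul_pos N0 (ch i).1
  have μ1 : ∀ i, (0 : ℝ) < μ i := fun i => Nat.cast_pos.2 (μ0 i)
  have q0 : ∀ i, φ / τ i ≠ 0 := fun i => div_ne_zero φ0 (ch i).2.2.1
  have G0 : ∀ i, G i ≠ 0 := fun i =>
    mul_ne_zero (pow_ne_zero _ (ch i).2.1) (pow_ne_zero _ (q0 i))
  have oG : ∀ i (P : Pl X.K), (P.ord (G i) : ℝ) / μ i =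
      P.ord (a i) / m i + (P.ord φ - P.ord (τ i)) / N := fun i P => by
    simp only [G, μ]
    rw [Pl.ord_mul _ (pow_ne_zero _ (ch i).2.1) (pow_ne_zero _ (q0 i)), Pl.ord_pow, Pl.ord_pow,
      Pl.ord_div _ φ0 (ch i).2.2.1]
    have := (m0 i).ne'
    have : (N : ℝ) ≠ 0 := by linarith
    push_cast
    field_simp
  have oE : ∀ i (E : X.PrimeDiv) (P : Pl X.K), E.1 ∈ W i → Dom P.ring E.1 →
      (P.ord (G i) : ℝ) / μ i = cn X.K (n + 1) P + P.ord j + C E + (P.ord φ + P.mz t) / N :=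
    fun i E P s1 s2 => by
      obtain ⟨s3, s4⟩ := (ch i).2.2.2.2.2 _ s1
      rw [oG, val_coef fr s2 (ch i).1 s3, mz s4 s2, sub_eq_add_neg]
  obtain ⟨Δ, hΔ⟩ := glue_div hd hK fr W cov μ μ0 G G0 fun E i i' s1 s2 => by
    obtain ⟨w, e, o⟩ := pl_of plc E
    rw [o, o, ← Rat.cast_inj (α := ℝ)]
    push_cast
    rw [oE i E w s1 e.dom, oE i' E w s2 e.dom]
  have cf : ∀ (E : X.PrimeDiv) (P : Pl X.K), Dom P.ring E.1 →
      (Δ E : ℝ) = C E + (P.ord φ + P.mz t) / N := fun E P s2 => by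
    obtain ⟨i, s1⟩ := cov E.1
    have := val_coef fr s2 (μ0 i) (hΔ i _ s1)
    rw [oE i E P s1 s2] at this
    linarith
  have Q0 : 0 < ∏ i, μ i := Finset.prod_pos fun i _ => μ0 i
  have Q1 : (0 : ℝ) < (∏ i, μ i : ℕ) := Nat.cast_pos.2 Q0
  refine ⟨φ, Δ, 1 / (2 * (∏ i, μ i : ℕ)), ∏ i, μ i, φ0, by positivity, Q0,
    ⟨fun E _ => ?_, fun ξ _ => ?_, fun Mo E _ l b l0 hb => ?_⟩, fun E => ?_, fun E σ h => ?_⟩
  · obtain ⟨w, e, -⟩ := pl_of plc E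
    have b0 : (0 : ℝ) ≤ C E := by exact_mod_cast hC.1 E trivial
    have : (0 : ℝ) ≤ Δ E := by
      rw [cf E w e.dom]
      exact add_nonneg b0 (div_nonneg (lo w) (by linarith))
    exact_mod_cast this
  · obtain ⟨i, s1⟩ := cov ξ
    exact ⟨_, _, μ0 i, hΔ i _ s1⟩
  · obtain ⟨⟨Q, e⟩, o⟩ := plc X Mo.Y Mo.pull (mdc X Mo).1 E
    have dm := (mdc X Mo).2 E Q e
    obtain ⟨i, s1⟩ := cov (E.1.map Mo.π)
    have u := loc_uniq har plc hb (hΔ i _ s1) dm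
    have l1 : (l : ℝ) ≠ 0 := Nat.cast_ne_zero.2 l0.ne'
    have u' : (Q.ord b : ℝ) / l = Q.ord (G i) / μ i := by
      rw [div_eq_div_iff l1 (μ1 i).ne']
      linarith
    have hw : ∀ b ∈ v i, b ∈ Q.ring := fun b hb => (dm b ((ch i).2.2.2.1 b hb _ s1)).1
    obtain ⟨k1, k2, k3⟩ := key i Q hw
    have k4 := hi i (fun w h => by rw [(key i w h).2.2]; exact (key i w h).1.le) Q hw
    rw [k3, k2] at k4
    have k5 := lo Q
    rw [k2] at k5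
    obtain ⟨z, hz⟩ := Stp.kap_int y Q
    rw [← ey] at hz
    have k6 : (1 : ℝ) ≤ m i * (1 + (cn X.K (n + 1) Q + Q.ord j - Q.ord (a i) / m i)) := by
      have e1 : (m i : ℝ) * (1 + (cn X.K (n + 1) Q + Q.ord j - Q.ord (a i) / m i)) =
          (m i * (1 + z + Q.ord j) - Q.ord (a i) : ℤ) := by
        rw [hz]
        have := (m0 i).ne'
        push_cast
        field_simp
        ring
      have e2 := mul_pos (m0 i) k1
      rw [e1] at e2 ⊢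
      exact_mod_cast e2
    have k7 : (m i : ℝ) ≤ (∏ i, μ i : ℕ) := Nat.cast_le.2 (Nat.le_of_dvd Q0
      ((Dvd.intro_left N rfl).trans (Finset.dvd_prod_of_mem μ (Finset.mem_univ i))))
    have k8 : ((Q.ord φ : ℝ) - Q.ord (τ i)) / N ≤ (Q.ord φ - Q.ord (τ i)) / 2 :=
      div_le_div_of_nonneg_left (by linarith) two_pos N1
    show 1 / (2 * ((∏ i, μ i : ℕ) : ℝ)) ≤ _
    rw [fr _ _ E Q e (o Q e), o Q e, u', oG, div_le_iff₀ (by positivity)]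
    have k9 := mul_le_mul_of_nonneg_right k7 k1.le
    nlinarith
  · obtain ⟨i, s1⟩ := cov E.1
    obtain ⟨c, hc⟩ := Finset.dvd_prod_of_mem μ (Finset.mem_univ i)
    have := (hΔ i _ s1).2 E specializes_rfl
    rw [logCan] at this
    refine ⟨c * (ord (G i) E - μ i * formOrd ω (RingEquiv.refl X.K) E), ?_⟩
    rw [hc]
    push_cast
    rw [this]
    ring
  · obtain ⟨w, e, o⟩ := pl_of plc E
    rw [o, ← Rat.cast_inj (α := ℝ), cf E w e.dom, mz h e.dom, Pl.ord_div _ φ0 h.2.1]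
    push_cast
    ring

end Vale.Agent.P283R.Ft
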