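import Vale.Agent.P283R.Ft.St

/-!
# P283R, block FT: a relatively ample divisor plus a pull back is free on the whole variety
-/

open Set CategoryTheory AlgebraicGeometry Order

noncomputable section

namespace Vale.Agent.P283R.Ft

open Vale.Agent.P283M.Stm Vale.Agent.P283M.Stm.Var Vale.Agent.P283M.Am
open Vale.Agent.P283M.Br (GenAt Bpf exists_sys bpf_of)

namespace G90

variable {X : Var} {D E : X.X → ℚ} {x : X.X}

/-- a global section generates at `x` -/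
def Gl (D : X.X → ℚ) (x : X.X) : Prop := ∃ τ : X.K, (∀ p, Sc D τ p) ∧ Gn D τ x

theorem Gl.add (h : Gl D x) (h' : Gl E x) : Gl (D + E) x :=
  let ⟨τ, a, b⟩ := h
  let ⟨σ, c, d⟩ := h'
  ⟨τ * σ, fun p => (a p).mul (c p), b.mul d⟩

theorem Gl.smul (h : Gl D x) (n : ℕ) : Gl ((n : ℚ) • D) x :=
  let ⟨τ, a, b⟩ := h
  ⟨τ ^ n, fun p => (a p).pow n, b.pow n⟩

theorem fs {s : Finset X.K} (h : Sys ⊤ D s) : Fs D := by
  refine (s.finite_toSet.biUnion fun g (_ : g ∈ (s : Set X.K)) =>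
    (show {y : X.X | g ≠ 0 ∧ coheight y = 1 ∧ od g y + (0 : X.X → ℚ) y ≠ 0}.Finite from ?_)).subset
    fun y a => ?_
  · by_cases g0 : g = 0
    · simp [g0]
    · exact (fs_zero.fin g0).subset fun y a => a.2
  · obtain ⟨g, b, c⟩ := h.gen y trivial
    refine mem_biUnion b ⟨c.1, a.1, fun e => a.2 ?_⟩
    have := c.2 y a.1 specializes_rfl
    rw [Pi.zero_apply, add_zero] at e
    rwa [e, zero_add] at this

theorem sys (hD : Fs D) (h : ∀ x, Gl D x) : ∃ t, Sys ⊤ D t := by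
  classical
  choose τ a b using h
  obtain ⟨T, hT⟩ := cover ⊤ (fun x => {y | Gn D (τ x) y}) (fun x => hD.isOpen _)
    fun x _ => ⟨x, b x⟩
  refine ⟨T.image τ, fun g hg p _ => ?_, fun y _ => ?_⟩
  · obtain ⟨x, -, rfl⟩ := Finset.mem_image.1 hg
    exact a x p
  · obtain ⟨x, c, d⟩ := hT y trivial
    exact ⟨_, Finset.mem_image_of_mem _ c, d⟩

/-- extension from the locus of a section -/
theorem ext {W : X.X.Opens} {g : X.K} {s : Finset X.K} (hE : Fs E) (hD : Fs D)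
    (hg : ∀ p, Sc D g p) (hW : ∀ p, p ∈ W ↔ Gn D g p) (h : Sys W E s) (hx : x ∈ W) :
    ∃ (n : ℕ) (O : Set X.X), IsOpen O ∧ x ∈ O ∧ ∀ y ∈ O, Gl (E + (n : ℚ) • D) y := by
  obtain ⟨τ, a, b⟩ := h.gen x hx
  have c := (hW x).1 hx
  obtain ⟨n, hn⟩ := ext_sec (W := ⊤) (f := τ) hE c.1 (fun p _ => hg p)
    fun p _ e => h.sec τ a p ((hW p).2 e)
  exact ⟨n, _, (hE.add (hD.smul n)).isOpen (τ * g ^ n), b.mul (c.pow n),
    fun y hy => ⟨_, fun p => hn n le_rfl p trivial, hy⟩⟩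

end G90

open G90 in
/-- **GLB** -/
theorem glb90 : GLB := fun X Z f q A s t' pe fA hA hs ht => by
  classical
  obtain ⟨S, hS⟩ := exists_sys hs
  have up : ∀ (x : X.X) ρ, GenAt t' ρ (f x) → GenAt (t'.image q) (q ρ) x := fun x ρ h =>
    ⟨Finset.mem_image_of_mem _ h.1, (map_ne_zero q).2 h.2.1, fun g hg => by
      obtain ⟨b, hb, rfl⟩ := Finset.mem_image.1 hg
      rw [← map_div₀]
      exact pe.reg (h.2.2 b hb)⟩
  obtain ⟨H, hH⟩ := exists_sys (s := t'.image q) (W := ⊤) fun x _ =>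
    let ⟨ρ, h⟩ := ht.1 (f x) trivial; ⟨_, up x ρ h⟩
  have gH : ∀ (x : X.X) ρ, GenAt t' ρ (f x) → Gn H (q ρ) x := fun x ρ h =>
    (up x ρ h).gn hH trivial
  have lH : ∀ y, Gl H y := fun y =>
    let ⟨g, a, b⟩ := hH.gen y trivial; ⟨g, fun p => hH.sec g a p trivial, b⟩
  have fa : Fs (ex A) := (fA.image Subtype.val).subset fun y a =>
    ⟨⟨y, a.1⟩, fun b => a.2 ((ex_apply ⟨y, a.1⟩).trans b), rfl⟩
  have key : ∀ x : X.X, ∃ (m c : ℕ) (O : Set X.X), 0 < m ∧ IsOpen O ∧ x ∈ O ∧ ∀ i : ℕ, c ≤ i →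
      ∃ b₀ : ℕ, ∀ b : ℕ, b₀ ≤ b → ∀ y ∈ O,
        Gl (((i * m : ℕ) : ℚ) • ex A - S + (b : ℚ) • H) y := fun x => by
    obtain ⟨k, a, U, -, hU, hx, -, sa, nv⟩ := ht.2 ⊤ (f x) trivial
    have e : ∀ ρ, q (a / ρ ^ k) = q a / q ρ ^ k := fun ρ => by rw [map_div₀, map_pow]
    have hg : ∀ p, Sc ((k : ℚ) • H) (q a) p := fun p => by
      obtain ⟨ρ, h⟩ := ht.1 (f p) trivial
      have c := (gH p ρ h).pow k
      have := c.sc.loc (pe.reg (y := p) (sa _ trivial ρ h))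
      rwa [e, div_mul_cancel₀ _ c.1] at this
    have hW : ∀ p, p ∈ f ⁻¹ᵁ U ↔ Gn ((k : ℚ) • H) (q a) p := fun p => by
      refine (nv (f p)).trans ⟨fun n => ?_, fun n ρ h => ?_⟩
      · obtain ⟨ρ, h⟩ := ht.1 (f p) trivial
        exact ((gH p ρ h).pow k).of_un (e ρ ▸ (pe.un (y := p) (sa _ trivial ρ h)).2 (n ρ h))
      · refine (pe.un (y := p) (sa _ trivial ρ h)).1 ?_
        rw [e]
        exact un_div (nrm X) ((gH p ρ h).pow k) n
    obtain ⟨m, u, m0, h⟩ := (amp_of hA hU).va (str X) (nrm X)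
    obtain ⟨c, u', h'⟩ := h.rep (nrm X) (fs hS).neg fun p _ =>
      let ⟨g, _, b⟩ := hS.gen p trivial; ⟨_, b.inv⟩
    obtain ⟨n, O, o1, o2, o3⟩ := ext (fa.smul m) ((fs hH).smul k) hg hW h.sys hx
    obtain ⟨n', O', p1, p2, p3⟩ :=
      ext ((fs hS).neg.add ((fa.smul m).smul c)) ((fs hH).smul k) hg hW h' hx
    refine ⟨m, c, O ∩ O', m0, o1.inter p1, ⟨o2, p2⟩, fun i hi => ?_⟩
    obtain ⟨i, rfl⟩ := Nat.exists_eq_add_of_le hi
    refine ⟨n' * k + i * (n * k), fun b hb y hy => ?_⟩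
    obtain ⟨b, rfl⟩ := Nat.exists_eq_add_of_le hb
    convert ((p3 y hy.2).add ((o3 y hy.1).smul i)).add ((lH y).smul b) using 1
    push_cast
    module
  choose m c O m0 hO hx hb using key
  obtain ⟨T, hT⟩ := cover ⊤ O hO fun x _ => ⟨x, hx x⟩
  have M0 : 0 < ∏ x ∈ T, m x := Finset.prod_pos fun x _ => m0 x
  have k : ∀ x, ∃ b₀ : ℕ, x ∈ T → ∀ b : ℕ, b₀ ≤ b → ∀ y ∈ O x,
      Gl ((((T.sup c + 2) * ∏ x ∈ T, m x : ℕ) : ℚ) • ex A - S + (b : ℚ) • H) y := fun x => by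
    by_cases h : x ∈ T
    · obtain ⟨r, hr⟩ := Finset.dvd_prod_of_mem m h
      have r0 : 0 < r := Nat.pos_of_mul_pos_left (hr ▸ M0)
      obtain ⟨b₀, e⟩ := hb x ((T.sup c + 2) * r)
        (((Finset.le_sup h).trans (Nat.le_add_right _ 2)).trans (Nat.le_mul_of_pos_right _ r0))
      exact ⟨b₀, fun _ => by rwa [hr, mul_comm (m x), ← mul_assoc]⟩
    · exact ⟨0, fun a => absurd a h⟩
  choose b₀ hb₀ using k
  obtain ⟨t, h⟩ := sys (D := (((T.sup c + 2) * ∏ x ∈ T, m x : ℕ) : ℚ) • ex A - S +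
    ((T.sup b₀ : ℕ) : ℚ) • H) (by
      rw [sub_eq_add_neg]
      exact ((fa.smul _).add (fs hS).neg).add ((fs hH).smul _)) fun y =>
    let ⟨x, a, b⟩ := hT y trivial; hb₀ x a _ (Finset.le_sup a) y b
  refine ⟨_, 1, T.sup b₀, t, (Nat.le_add_left 2 (T.sup c)).trans (Nat.le_mul_of_pos_right _ M0),
    one_pos, bpf_of h, fun x τ σ ρ a b e => ?_⟩
  rw [localEq_iff, inv_div, div_eq_mul_inv, pow_one]
  convert ((a.gn h trivial).mul (b.gn hS trivial)).mul ((gH x ρ e).pow (T.sup b₀)).inv using 1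
  abel

end Vale.Agent.P283R.Ft
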