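import Vale.Agent.P283R.Ft.St2

/-!
# P283R, block FT: a relatively ample divisor is big
-/

open Set CategoryTheory AlgebraicGeometry Order

noncomputable section

namespace Vale.Agent.P283R.Ft

open Vale.Agent.P283M.Stm Vale.Agent.P283M.Stm.Var Vale.Agent.P283M.Am
open Vale.Agent.P283M.Br (GenAt Bpf exists_sys bpf_of)
open Vale.Agent.P270L.S

/-- **BIG** -/
theorem big27 : BIG := fun X Z f q A u t' pe fA hA ht => by
  classical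
  have up : ∀ (x : X.X) ρ, GenAt t' ρ (f x) → GenAt (t'.image q) (q ρ) x := fun x ρ h =>
    ⟨Finset.mem_image_of_mem _ h.1, (map_ne_zero q).2 h.2.1, fun g hg => by
      obtain ⟨b, hb, rfl⟩ := Finset.mem_image.1 hg
      rw [← map_div₀]
      exact pe.reg (h.2.2 b hb)⟩
  obtain ⟨H, hH⟩ := exists_sys (s := t'.image q) (W := ⊤) fun x _ =>
    let ⟨ρ, h⟩ := ht.1 (f x) trivial; ⟨_, up x ρ h⟩
  have gH : ∀ (x : X.X) ρ, GenAt t' ρ (f x) → Gn H (q ρ) x := fun x ρ h =>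
    (up x ρ h).gn hH trivial
  have fa : Fs (ex A) := (fA.image Subtype.val).subset fun y a =>
    ⟨⟨y, a.1⟩, fun b => a.2 ((ex_apply ⟨y, a.1⟩).trans b), rfl⟩
  obtain ⟨k, a, U, -, hU, hx, -, sa, nv⟩ := ht.2 ⊤ (f (genericPoint X.X)) trivial
  have e : ∀ ρ, q (a / ρ ^ k) = q a / q ρ ^ k := fun ρ => by rw [map_div₀, map_pow]
  have hg : ∀ p, Sc ((k : ℚ) • H) (q a) p := fun p => by
    obtain ⟨ρ, h⟩ := ht.1 (f p) trivial
    have c := (gH p ρ h).pow k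
    have := c.sc.loc (pe.reg (y := p) (sa _ trivial ρ h))
    rwa [e, div_mul_cancel₀ _ c.1] at this
  have hW : ∀ p, p ∈ f ⁻¹ᵁ U ↔ Gn ((k : ℚ) • H) (q a) p := fun p => by
    refine (nv (f p)).trans ⟨fun n => ?_, fun n ρ h => ?_⟩
    · obtain ⟨ρ, h⟩ := ht.1 (f p) trivial
      exact ((gH p ρ h).pow k).of_un (e ρ ▸ (pe.un (y := p) (sa _ trivial ρ h)).2 (n ρ h))
    · refine (pe.un (y := p) (sa _ trivial ρ h)).1 ?_
      rw [e]
      exact un_div (nrm X) ((gH p ρ h).pow k) n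
  obtain ⟨m, g, V, m0, hV, xV, sg, eV⟩ := amp_of hA hU (genericPoint X.X) hx
  have g0 : g ≠ 0 := ((eV _).1 xV).2.1
  have a0 : q a ≠ 0 := ((hW _).1 hx).1
  choose β b1 b2 b3 using fun σ : X.K => frac hV xV (mem_loc_gen σ)
  have B0 : ∏ σ ∈ u, β σ ≠ 0 := Finset.prod_ne_zero_iff.2 fun σ _ => (b2 σ).1
  have hB : ∀ σ ∈ u, (∏ σ ∈ u, β σ) * σ ∈ reg V := fun σ h => by
    rw [← Finset.mul_prod_erase u β h, mul_right_comm]
    exact mul_mem (b3 σ) (prod_mem fun σ _ => b1 σ)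
  have k1 : ∀ σ : X.K, ∃ N : ℕ, σ ∈ u → ∀ n : ℕ, N ≤ n → ∀ p ∈ f ⁻¹ᵁ U,
      Sc (0 + (n : ℚ) • (m : ℚ) • ex A) ((∏ σ ∈ u, β σ) * σ * g ^ n) p := fun σ => by
    by_cases h : σ ∈ u
    · obtain ⟨N, hN⟩ := ext_sec (f := (∏ σ ∈ u, β σ) * σ) fs_zero g0 sg fun p hp c =>
        (sc_zero (nrm X)).2 (mem_reg.1 (hB σ h) p ((eV p).2 ⟨hp, c⟩))
      exact ⟨N, fun _ => hN⟩
    · exact ⟨0, fun c => absurd c h⟩
  choose N hN using k1
  have k2 : ∀ σ : X.K, ∃ M : ℕ, σ ∈ u → ∀ n : ℕ, M ≤ n → ∀ p ∈ (⊤ : X.X.Opens),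
      Sc ((0 + ((u.sup N + 1 : ℕ) : ℚ) • (m : ℚ) • ex A) + (n : ℚ) • (k : ℚ) • H)
        ((∏ σ ∈ u, β σ) * σ * g ^ (u.sup N + 1) * q a ^ n) p := fun σ => by
    by_cases h : σ ∈ u
    · obtain ⟨M, hM⟩ := ext_sec (W := ⊤) (fs_zero.add ((fa.smul m).smul (u.sup N + 1 : ℕ))) a0
        (fun p _ => hg p) fun p _ c =>
          hN σ h _ ((Finset.le_sup h).trans (Nat.le_succ _)) p ((hW p).2 c)
      exact ⟨M, fun _ => hM⟩
    · exact ⟨0, fun c => absurd c h⟩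
  choose M hM using k2
  have T0 : (∏ σ ∈ u, β σ) * g ^ (u.sup N + 1) * q a ^ u.sup M ≠ 0 :=
    mul_ne_zero (mul_ne_zero B0 (pow_ne_zero _ g0)) (pow_ne_zero _ a0)
  refine ⟨(u.sup N + 1) * m, u.sup M * k, _, mul_pos (Nat.succ_pos _) m0, T0,
    fun E ρ hρ σ h σ0 => ?_⟩
  have c := (gH E.1 ρ hρ).pow (u.sup M * k)
  have d := (hM σ h _ (Finset.le_sup h) E.1 trivial).mul c.inv.sc
  have r : (∏ σ ∈ u, β σ) * σ * g ^ (u.sup N + 1) * q a ^ u.sup M * (q ρ ^ (u.sup M * k))⁻¹ =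
      (∏ σ ∈ u, β σ) * g ^ (u.sup N + 1) * q a ^ u.sup M * σ / q ρ ^ (u.sup M * k) := by ring
  rw [r] at d
  have := d (div_ne_zero (mul_ne_zero T0 σ0) c.1) E.1 E.2 specializes_rfl
  simp only [Pi.add_apply, Pi.smul_apply, Pi.neg_apply, smul_eq_mul, ex_apply, Pi.zero_apply]
    at this
  refine this.trans_eq ?_
  push_cast
  change od _ _ + _ = od _ _ + _
  ring

end Vale.Agent.P283R.Ft
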