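import Vale.Agent.P283R.Ft.St2
import Vale.Agent.P283R.Cf.Dwnr
import Vale.Agent.P287D.Iso.Can

/-!
# P283R, block FT: small birational morphisms are crepant
-/

open Set CategoryTheory AlgebraicGeometry

noncomputable section

namespace Vale.Agent.P283R.Ft

open Vale.Agent.P287D Vale.Agent.P297Z
open Vale.Agent.P289 (Pt)
open Vale.Agent.P283M Vale.Agent.P283M.Stm Vale.Agent.P283M.Stm.Var
open Vale.Agent.P283M.Br (Dom har plc mdc frm ffd pl_of loc_uniq)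
open Vale.Agent.P283R.Cf.Dw

theorem crp9 : CRP := by
  intro X' X π p d ω ω' ov hp hc _ dX dX' w0 w0'
  obtain ⟨h, h0, fr⟩ := frm X d (ffd X d dX) ω w0
  obtain ⟨h', h0', fr'⟩ := frm X' d (ffd X' d dX') ω' w0'
  have s : Semi (p : X.K →+* X'.K) :=
    ⟨p.surjective, fun c => ⟨c, (hp.cst ov c).symm⟩, fun c => ⟨c, hp.cst ov c⟩⟩
  have p0 : ∀ {a}, a ≠ 0 → p a ≠ 0 := fun k => (map_ne_zero p).2 k
  have op : ∀ (P : Pl X.K) a, (s.pl P).ord (p a) = P.ord a := s.ord_pl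
  have n0 := mul_ne_zero (s.cf_ne d) (p0 h0)
  have j0 : h' / (s.cf d * p h) ≠ 0 := div_ne_zero h0' n0
  have key : ∀ P : Pl X.K, cn X'.K d (s.pl P) + (s.pl P).ord h' =
      cn X.K d P + P.ord h + (s.pl P).ord (h' / (s.cf d * p h)) := fun P => by
    have k := congrFun (s.pb_cn d) (s.pl P)
    rw [s.pb_pl, Pi.add_apply] at k
    rw [k, Pl.ord_div _ h0' n0, Pl.ord_mul _ (s.cf_ne d) (p0 h0), op, dv]
    push_cast
    ring
  have dm : ∀ (P : Pl X.K) (x : Pt X'.X), Dom (s.pl P).ring x → Dom P.ring (x.map π) :=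
    fun P x k g hg => by
      obtain ⟨a, b⟩ := k _ (hp.reg hg)
      refine ⟨s.mem_pl.1 a, fun g0 i => ((hp.un hg).1 ⟨p0 g0, hp.reg hg, b (p0 g0) ?_⟩).2.2⟩
      rw [← map_inv₀]
      exact s.mem_pl.2 i
  have ex : ∀ E : X'.PrimeDiv, ∃ P : Pl X.K, Dom (s.pl P).ring E.1 := fun E => by
    obtain ⟨Q, e, -⟩ := pl_of plc E
    exact ⟨s.pl.symm Q, by rw [s.pl.apply_symm_apply]; exact e.dom⟩
  let c : X'.PrimeDiv → X.PrimeDiv := fun E => ⟨E.1.map π, hc E⟩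
  have cc : ∀ E, (∀ a, ord (p a) E = ord a (c E)) ∧ formOrd ω' (RingEquiv.refl _) E =
      formOrd ω (RingEquiv.refl _) (c E) + ord (h' / (s.cf d * p h)) E := fun E => by
    obtain ⟨P, k⟩ := ex E
    obtain ⟨o', f'⟩ := at_pl fr' k
    obtain ⟨o, f⟩ := at_pl (E := c E) fr (dm P _ k)
    refine ⟨fun a => by rw [o', o, op], Int.cast_injective (α := ℝ) ?_⟩
    rw [Int.cast_add, f', f, o', key]
  refine ⟨_, c, j0, fun E E' e => ?_, fun E => ⟨rfl, cc E⟩, fun t C C' hC hB => ?_⟩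
  · obtain ⟨P, k⟩ := ex E
    obtain ⟨P', k'⟩ := ex E'
    obtain ⟨Q, q, -⟩ := pl_of plc (c E)
    obtain rfl := Br.pl_eq q (dm P _ k)
    obtain rfl := Br.pl_eq q (e ▸ dm P' _ k' : Dom P'.ring (c E).1)
    exact Subtype.ext (uq k k')
  have up : ∀ (x : Pt X'.X) m g, LocalEq (logCan ω C) m g (x.map π) →
      LocalEq (logCan ω' C') m (p g * (h' / (s.cf d * p h)) ^ m) x := fun x m g l =>
    ⟨mul_ne_zero (p0 l.1) (pow_ne_zero _ j0), fun E hE => by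
      obtain ⟨Q, -, o⟩ := pl_of plc E
      rw [o, Pl.ord_mul _ (p0 l.1) (pow_ne_zero _ j0), Pl.ord_pow, ← o, ← o, (cc E).1, logCan,
        (cc E).2, hC]
      push_cast
      rw [l.2 (c E) (hE.map π.continuous), logCan]
      ring⟩
  refine ⟨fun E _ => hC E ▸ hB.1 _ trivial, fun x _ => ?_, fun M E _ m g m0 l => ?_⟩
  · obtain ⟨m, g, m0, l⟩ := hB.2.1 (Pt.map π x) trivial
    exact ⟨m, _, m0, up x m g l⟩
  obtain ⟨⟨Q, i⟩, o⟩ := plc X' M.Y M.pull (mdc X' M).1 E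
  obtain ⟨P, rfl⟩ := s.pl.surjective Q
  have k := (mdc X' M).2 E _ i
  obtain ⟨n, a, n0', l'⟩ := hB.2.1 (Pt.map π (Pt.map M.π E.1)) trivial
  have v := val_pair fr hB trivial (dm P _ k) n0' l'
  have u := loc_uniq har plc l (up _ n a l') k
  rw [Pl.ord_mul _ (p0 l'.1) (pow_ne_zero _ j0), Pl.ord_pow, op] at u
  rw [fr' _ _ E _ i (o _ i), o _ i, key]
  have m1 : (m : ℝ) ≠ 0 := Nat.cast_ne_zero.2 m0.ne'
  have n1 : (n : ℝ) ≠ 0 := Nat.cast_ne_zero.2 n0'.ne'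
  have e : ((s.pl P).ord g : ℝ) / m = P.ord a / n + (s.pl P).ord (h' / (s.cf d * p h)) := by
    push_cast at u
    field_simp
    linarith
  rw [e]
  refine (congrArg t ?_).mp v
  ring

end Vale.Agent.P283R.Ft
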