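import Vale.Agent.P283R.Ft.St

/-!
# P283R, block FT: the descent (row `GLU`)
-/

set_option linter.all false

open Set CategoryTheory AlgebraicGeometry
open Vale.Agent.P289 Vale.Agent.P289.H219 Vale.Agent.P270L Vale.Agent.P283M.Am Vale.Agent.P299.G

noncomputable section

namespace Vale.Agent.P283R.Ft

open Vale.Agent.P287D Vale.Agent.P283M Vale.Agent.P283M.Br Vale.Agent.P283M.Stm.Var
open Vale.Agent.P283M.Stm (Contraction FanoType Pair AmpleOver)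
open Vale.Agent.P297Z Vale.Agent.P283R.Br Vale.Agent.P283R.Eb.Nf
open Vale.Agent.P283R.Et (Pe)

namespace G58

variable {X Y Z : Stm.Var} {g : X.X ⟶ Y.X} {p : Y.K →+* X.K}

theorem pe_comp {h : Y.X ⟶ Z.X} {q : Z.K →+* Y.K} (hp : Pe g p) (hq : Pe h q) :
    Pe (g ≫ h) (p.comp q) := fun x a => by
  refine (congrArg p (hq (x.map g) a)).trans ((hp x _).trans (congrArg toRat ?_))
  exact (congrArg (fun φ => φ.hom a) (Scheme.Hom.stalkMap_comp g h x)).symm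

theorem gen_gen {t : Finset X.K} {a : X.K} {x y : Pt X.X} (h : GenAt t a x) (s : y ⤳ x) :
    GenAt t a y := ⟨h.1, h.2.1, fun b hb => reg_gen s (h.2.2 b hb)⟩

theorem gen_up [DecidableEq X.K] (hp : Pe g p) {t : Finset Y.K} {a : Y.K} {x : Pt X.X}
    (h : GenAt t a (x.map g)) : GenAt (t.image p) (p a) x :=
  ⟨Finset.mem_image_of_mem _ h.1, (map_ne_zero p).2 h.2.1, fun b hb => by
    obtain ⟨c, hc, rfl⟩ := Finset.mem_image.1 hb
    rw [← map_div₀]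
    exact hp.reg (h.2.2 c hc)⟩

theorem od_dn (hp : Pe g p) {x : Pt X.X} (E : Y.PrimeDiv) (e : x.map g = E.1) {w : Y.K}
    (u : UnAt (p w) x) : od w E.1 = 0 := by
  obtain ⟨Q, q, -⟩ := pl_of plc E
  have w0 : w ≠ 0 := fun c => u.1 (by rw [c, map_zero])
  have k : ∀ {v : Y.K}, v ∈ Q.ring → UnAt (p v) x → od v E.1 = 0 := fun hv u =>
    od_un (p := E.1) (e ▸ (hp.un (e.symm ▸ (q _).1 hv)).1 u) specializes_rfl
  rcases Q.ring.mem_or_inv_mem w with a | a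
  · exact k a u
  · have := k a ⟨(map_ne_zero p).2 (inv_ne_zero w0), map_inv₀ p w ▸ u.2.2, by
      rw [map_inv₀, inv_inv]; exact u.2.1⟩
    rwa [od_inv w0, neg_eq_zero] at this

end G58

open G58 in
/-- **GLU** -/
theorem glu58 : GLU := by
  classical
  intro amp glb ber X Y Z g h p d r ω η hg hp hs hd hdim hω hη tw ⟨C, hC, hA⟩
  obtain ⟨tY, hY⟩ := Gl.amz Y
  obtain ⟨tZ, hZ⟩ := Gl.amz Z
  obtain ⟨q, hq⟩ := Cf.Fto.exists_pe h
  have hK := ffd X _ hdim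
  obtain ⟨j, -, fr⟩ := frm X _ hK ω hω
  have d1 : 1 ≤ d + r := hd.trans (Nat.le_add_right d r)
  have fin : {E | (-logCan ω C) E ≠ 0}.Finite :=
    ((Cf.Dw.form_fin' d1 hK fr).union C.support.finite_toSet).subset fun E a => by_contra fun k =>
      a (by
        have e1 : formOrd ω (RingEquiv.refl X.K) E = 0 := not_not.1 fun e => k (.inl e)
        have e2 : C E = 0 := Finsupp.notMem_support_iff.1 fun e => k (.inr e)
        rw [Pi.neg_apply, logCan, e1, e2]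
        simp)
  obtain ⟨N, a, b, t, N2, a0, bt, H⟩ := glb X Z (g ≫ h) (p.comp q) _ (tY.image p) tZ
    (pe_comp hp hq) fin hA (fun x _ => let ⟨σ, k⟩ := hY.1 (Pt.map g x) trivial; ⟨_, gen_up hp k⟩) hZ
  obtain ⟨φ, C', ε, n, φ0, ε0, n0, hC', hn, eq⟩ := ber X _ N ω C t d1 hdim hω hC bt N2
  have p0 : ∀ {f}, f ≠ 0 → p f ≠ 0 := fun k => (map_ne_zero p).2 k
  have q0 : ∀ {f}, f ≠ 0 → q f ≠ 0 := fun k => (map_ne_zero q).2 k
  have N0 : (N : ℚ) ≠ 0 := Nat.cast_ne_zero.2 (by omega)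
  have le : ∀ (x : Pt X.X) σ ρ, GenAt tY σ (x.map g) → GenAt tZ ρ ((x.map g).map h) →
      LocalEq (logCan ω C') N (φ / p (q ρ ^ b / σ ^ a)) x := fun x σ ρ k1 k2 => by
    obtain ⟨τ, k⟩ := bt x trivial
    have s0 := pow_ne_zero a (p0 k1.2.1)
    have r0 := pow_ne_zero b (p0 (q0 k2.2.1))
    rw [map_div₀, map_pow, map_pow]
    refine ⟨div_ne_zero φ0 (div_ne_zero r0 s0), fun E s => ?_⟩
    have e1 : od (p (q ρ) ^ b / (τ * p σ ^ a)) E.1 = _ := (H x τ _ ρ k (gen_up hp k1) k2).2 E s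
    have e2 : C' E = C E + od (φ / τ) E.1 / N := eq E τ (gen_gen k s)
    change od _ E.1 = _
    rw [od_div r0 (mul_ne_zero k.2.1 s0), od_mul k.2.1 s0, Pi.neg_apply, logCan] at e1
    rw [od_div φ0 k.2.1] at e2
    rw [od_div φ0 (div_ne_zero r0 s0), od_div r0 s0, logCan, e2]
    field_simp
    linarith
  obtain ⟨R, M', ε', -, -, ε1, dw⟩ := Cf.dwn r n ε n0 ε0
  obtain ⟨Δ, hΔ, -, ⟨M, θ, M0, θ0, pu⟩, -⟩ := dw X Y g p hg hp d ω η C' hd hdim hω hη hC' hn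
    (fun y => by
      obtain ⟨σ, k1⟩ := hY.1 y trivial
      obtain ⟨ρ, k2⟩ := hZ.1 (y.map h) trivial
      exact ⟨N, φ / p (q ρ ^ b / σ ^ a), by omega, fun x e => le x σ ρ (e ▸ k1) (e ▸ k2)⟩) tw
  have two : ∀ (x : Pt X.X) σ ρ m c, GenAt tY σ (x.map g) → GenAt tZ ρ ((x.map g).map h) →
      LocalEq (logCan η Δ) m c (x.map g) →
      LocalEq (logCan ω C') (N * (M * m)) ((θ ^ m * p c ^ M) ^ N) x ∧
        LocalEq (logCan ω C') (N * (M * m)) ((φ / p (q ρ ^ b / σ ^ a)) ^ (M * m)) x :=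
    fun x σ ρ m c k1 k2 k => ⟨le_pow (pu x m c k) N, mul_comm (M * m) N ▸ le_pow (le x σ ρ k1 k2) _⟩
  obtain ⟨m₀, θ₀, m0, hθ⟩ : ∃ m₀ θ₀, 0 < m₀ ∧ p θ₀ = (θ ^ N / φ ^ M) ^ m₀ := by
    let y : Pt Y.X := genericPoint Y.X
    obtain ⟨σ, k1⟩ := hY.1 y trivial
    obtain ⟨ρ, k2⟩ := hZ.1 (y.map h) trivial
    obtain ⟨m, c, m0, k⟩ := hΔ.2.1 y trivial
    obtain ⟨e, he⟩ := Nat.exists_eq_add_of_le' d1
    have op : ∀ m a, IsOpen {x : X.X | LocalEq (logCan ω C') m a x} := by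
      revert ω hK
      rw [he]
      intro ω
      intros
      exact open_localEq ‹_› ‹_› _ _ _
    have := hg.2.1
    have o := (g.isClosedMap _ ((op (N * (M * m)) ((θ ^ m * p c ^ M) ^ N)).inter
      (op (N * (M * m)) ((φ / p (q ρ ^ b / σ ^ a)) ^ (M * m)))).isClosed_compl).isOpen_compl
    obtain ⟨u, hu⟩ := Cf.Cht.down hg hp (V := ⟨_, o⟩) (y := y)
      (fun ⟨x, i, e⟩ => have e : Pt.map g x = y := e
        i (two x σ ρ m c (e ▸ k1) (e ▸ k2) (e ▸ k)))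
      (u := (θ ^ m * p c ^ M) ^ N / (φ / p (q ρ ^ b / σ ^ a)) ^ (M * m)) fun x hx => by
        have := not_not.1 fun c => hx ⟨x, c, rfl⟩
        exact (le_un this.1 this.2).2.1
    refine ⟨m, u / (c ^ (M * N) * (q ρ ^ b / σ ^ a) ^ (M * m)), m0, ?_⟩
    have := p0 k.1
    have := p0 (div_ne_zero (pow_ne_zero b (q0 k2.2.1)) (pow_ne_zero a k1.2.1))
    rw [map_div₀, hu, map_mul, map_pow, map_pow]
    generalize p (q ρ ^ b / σ ^ a) = v at *
    simp only [div_pow, mul_pow, ← pow_mul]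
    rw [mul_comm m N]
    field_simp
  have t0 : θ₀ ≠ 0 := fun c => pow_ne_zero m₀ (div_ne_zero (pow_ne_zero N θ0) (pow_ne_zero M φ0))
    (by rw [← hθ, c, map_zero])
  refine ⟨Δ, ⟨hΔ.1, hΔ.2.1, fun M E a m g b c => ε1.trans_le (hΔ.2.2 M E a m g b c)⟩,
    amp Y Z h q tY tZ _ (M * N * m₀) (a * (M * m₀)) (b * (M * m₀)) θ₀ hq hY hZ.1
      (by positivity) (by positivity) fun y σ ρ k1 k2 => ?_⟩
  have v0 := div_ne_zero (pow_ne_zero b (q0 k2.2.1)) (pow_ne_zero a k1.2.1)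
  rw [mul_div_assoc, pow_mul, pow_mul σ, ← div_pow]
  refine ⟨mul_ne_zero t0 (pow_ne_zero _ v0), fun E s => ?_⟩
  obtain ⟨m, c, m1, k⟩ := hΔ.2.1 E.1 trivial
  obtain ⟨x, e⟩ : ∃ x : Pt X.X, Pt.map g x = E.1 := hg.2.2.1.surj E.1
  have w := two x σ ρ m c (e ▸ gen_gen k1 s) (e ▸ gen_gen k2 (s.map h.continuous)) (e ▸ k)
  have u := Gl.Amz.un_pow (le_un w.1 w.2) m₀
  have c1 : od c E.1 = m * logCan η Δ E := k.2 E specializes_rfl
  generalize q ρ ^ b / σ ^ a = v at *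
  have e1 : ((θ ^ m * p c ^ M) ^ N / (φ / p v) ^ (M * m)) ^ m₀ =
      p (θ₀ ^ m * (c ^ (M * N * m₀) * v ^ (M * m * m₀))) := by
    have := p0 v0
    rw [map_mul, map_mul, map_pow, map_pow, map_pow, hθ]
    simp only [div_pow, mul_pow, ← pow_mul]
    field_simp
    ring
  have e2 := od_dn hp E e (e1 ▸ u)
  change od _ E.1 = _
  rw [od_mul (pow_ne_zero _ t0) (mul_ne_zero (pow_ne_zero _ k.1) (pow_ne_zero _ v0)),
    od_mul (pow_ne_zero _ k.1) (pow_ne_zero _ v0), od_pow t0, od_pow k.1, od_pow v0, c1] at e2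
  rw [od_mul t0 (pow_ne_zero _ v0), od_pow v0, Pi.neg_apply]
  have m2 : (m : ℚ) ≠ 0 := Nat.cast_ne_zero.2 m1.ne'
  refine mul_left_cancel₀ m2 ?_
  push_cast at e2 ⊢
  linarith

end Vale.Agent.P283R.Ft
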