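import Vale.Agent.P283R.Ft.St2
import Vale.Agent.P283R.Ft.Glu58

/-!
# P283R, block FT: the ascent (row `GLA`)
-/

set_option linter.all false

open Set CategoryTheory AlgebraicGeometry
open Vale.Agent.P289 Vale.Agent.P289.H219 Vale.Agent.P270L Vale.Agent.P283M.Am Vale.Agent.P299.G

noncomputable section

namespace Vale.Agent.P283R.Ft

open Vale.Agent.P287D Vale.Agent.P283M Vale.Agent.P283M.Br Vale.Agent.P283M.Stm.Var
open Vale.Agent.P283M.Stm (Contraction FanoType Pair AmpleOver)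
open Vale.Agent.P297Z Vale.Agent.P283R.Br Vale.Agent.P283R.Eb.Nf
open Vale.Agent.P283R.Et (Pe)

open G58 in
/-- **GLA** -/
theorem gla58 : GLA := by
  classical
  intro amp glb ber big opn crp X' X Z π h p d ω ω' hπ hp sm hs hd hdim hdim' hω hω' ⟨C, hC, hA⟩
  obtain ⟨t', hY⟩ := Gl.amz X'
  obtain ⟨tZ, hZ⟩ := Gl.amz Z
  obtain ⟨q, hq⟩ := Cf.Fto.exists_pe h
  have hq' := pe_comp hp hq
  have hK := ffd X _ hdim
  obtain ⟨j₀, -, fr⟩ := frm X _ hK ω hω
  have ff := Cf.Dw.form_fin' hd hK fr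
  have fi : {E | (-logCan ω C) E ≠ 0}.Finite :=
    (ff.union C.support.finite_toSet).subset fun E a => by_contra fun k =>
      a (by
        have e1 : formOrd ω (RingEquiv.refl X.K) E = 0 := not_not.1 fun e => k (.inl e)
        have e2 : C E = 0 := Finsupp.notMem_support_iff.1 fun e => k (.inr e)
        rw [Pi.neg_apply, logCan, e1, e2]
        simp)
  have one : ∀ x : Pt X.X, GenAt ({1} : Finset X.K) 1 x := fun x =>
    ⟨Finset.mem_singleton_self _, one_ne_zero, fun g hg => by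
      rw [Finset.mem_singleton.1 hg, div_one]
      exact reg_one⟩
  obtain ⟨N, a, b, t, N2, -, bt, H⟩ := glb X Z h q _ {1} tZ hq fi hA (fun x _ => ⟨1, one x⟩) hZ
  obtain ⟨φ, C₀, ε, -, φ0, ε0, -, hC₀, -, eq⟩ := ber X _ N ω C t hd hdim hω hC bt N2
  obtain ⟨j, c, j0, ci, hc, up⟩ := crp X' X π p d ω ω' hπ hp sm hd hdim hdim' hω hω'
  obtain ⟨N₁, b₁, τ, N1, τ0, bg⟩ := big X Z h q _ (t'.image p.symm) tZ hq fi hA hZ
  have p0 : ∀ {f}, f ≠ 0 → p f ≠ 0 := fun k => (map_ne_zero p).2 k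
  have q0 : ∀ {f}, f ≠ 0 → q f ≠ 0 := fun k => (map_ne_zero q).2 k
  have N0 : (N : ℚ) ≠ 0 := Nat.cast_ne_zero.2 (by omega)
  have N3 : (0 : ℚ) < N₁ := Nat.cast_pos.2 N1
  have oc : ∀ E' f, od (p f) E'.1 = od f (c E').1 := fun E' f => congrArg Int.cast ((hc E').2.1 f)
  have fc : ∀ E', (formOrd ω' (RingEquiv.refl _) E' : ℚ) =
      formOrd ω (RingEquiv.refl _) (c E') + od j E'.1 := fun E' => by
    rw [(hc E').2.2, Int.cast_add]
    rfl
  have gc : ∀ {E' ρ}, GenAt tZ ρ (E'.1.map (π ≫ h)) → GenAt tZ ρ ((c E').1.map h) := fun {E' _} k =>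
    (hc E').1.symm ▸ k
  let C₀' : X'.QDiv := C₀.comapDomain c ci.injOn
  have e0 : ∀ (E' : X'.PrimeDiv) ρ, GenAt tZ ρ (E'.1.map (π ≫ h)) →
      N * logCan ω' C₀' E' = od (p φ) E'.1 - b * od (p (q ρ)) E'.1 + N * od j E'.1 := by
    intro E' ρ k
    obtain ⟨s, ks⟩ := bt (c E').1 trivial
    have e1 : od (q ρ ^ b / (s * 1 ^ a)) (c E').1 = _ :=
      (H _ s _ ρ ks (one _) (gc k)).2 (c E') specializes_rfl
    have e2 : C₀ (c E') = C (c E') + od (φ / s) (c E').1 / N := eq _ s ks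
    have e3 : C₀' E' = C₀ (c E') := rfl
    rw [one_pow, mul_one, od_div (pow_ne_zero _ (q0 k.2.1)) ks.2.1, od_pow (q0 k.2.1),
      Pi.neg_apply, logCan] at e1
    rw [od_div φ0 ks.2.1] at e2
    rw [logCan, fc, e3, e2, oc, oc]
    field_simp
    linarith
  choose σ hσ using fun E' : X'.PrimeDiv => hY.1 E'.1 trivial
  choose ρ hρ using fun E' : X'.PrimeDiv => hZ.1 (E'.1.map (π ≫ h)) trivial
  let F : X'.PrimeDiv → ℚ := fun E' =>
    od (p τ * σ E' / p (q (ρ E')) ^ b₁) E'.1 / N₁ - formOrd ω (RingEquiv.refl _) (c E')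
  have fF : (Function.support F).Finite := by
    refine ((ff.preimage ci.injOn).union ((t' ×ˢ tZ).finite_toSet.biUnion fun w _ =>
      fin X' (p τ * w.1 / p (q w.2) ^ b₁))).subset fun E' k => by_contra fun n => k ?_
    have e1 : formOrd ω (RingEquiv.refl X.K) (c E') = 0 := not_not.1 fun e => n (.inl e)
    have e2 : ord (p τ * σ E' / p (q (ρ E')) ^ b₁) E' = 0 := not_not.1 fun e => n (.inr
      (mem_biUnion (x := (σ E', ρ E')) (Finset.mem_product.2 ⟨(hσ E').1, (hρ E').1⟩) e))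
    have e3 : od (p τ * σ E' / p (q (ρ E')) ^ b₁) E'.1 = 0 := by
      rw [← Int.cast_zero, ← e2]
      rfl
    simp only [F, e1, e3]
    simp
  let C₁ : X'.QDiv := Finsupp.ofSupportFinite F fF
  have e1 : ∀ (E' : X'.PrimeDiv) s r, GenAt t' s E'.1 → GenAt tZ r (E'.1.map (π ≫ h)) →
      N₁ * logCan ω' C₁ E' =
        od (p τ) E'.1 + od s E'.1 - b₁ * od (p (q r)) E'.1 + N₁ * od j E'.1 := by
    intro E' s r k1 k2
    have u1 : od (s / σ E') E'.1 = 0 := od_un ((hσ E').un k1) specializes_rfl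
    have u := (hρ E').un k2
    have u2 : od (p (q (r / ρ E'))) E'.1 = 0 := od_un ((hq'.un u.2.1).2 u) specializes_rfl
    have e3 : C₁ E' = F E' := rfl
    have r0 := p0 (q0 (hρ E').2.1)
    rw [od_div k1.2.1 (hσ E').2.1] at u1
    rw [map_div₀, map_div₀, od_div (p0 (q0 k2.2.1)) r0] at u2
    rw [logCan, fc, e3]
    simp only [F]
    rw [od_div (mul_ne_zero (p0 τ0) (hσ E').2.1) (pow_ne_zero _ r0), od_mul (p0 τ0) (hσ E').2.1,
      od_pow r0, sub_eq_zero.1 u1, sub_eq_zero.1 u2]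
    field_simp
    ring
  obtain ⟨n, hn⟩ := opn X' d ω' C₀' C₁ hd hdim' hω'
    (up _ C₀ C₀' (fun _ => rfl) ⟨hC₀.1, hC₀.2.1, fun M E a m g b c =>
      ε0.trans_le (hC₀.2.2 M E a m g b c)⟩)
    (fun E' => by
      have k := bg (c E') _ (gc (hρ E')) _ (Finset.mem_image_of_mem p.symm (hσ E').1)
        ((map_ne_zero p.symm).2 (hσ E').2.1)
      have k1 := hC.1 (c E') trivial
      have k2 := oc E' (τ * p.symm (σ E') / q (ρ E') ^ b₁)
      rw [map_div₀, map_mul, map_pow, p.apply_symm_apply] at k2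
      change 0 ≤ od _ (c E').1 + _ at k
      rw [← k2, Pi.neg_apply, logCan] at k
      change 0 ≤ F E'
      simp only [F]
      rw [sub_nonneg, le_div_iff₀ N3]
      nlinarith [mul_nonneg N3.le k1])
    (fun x => by
      obtain ⟨s, k1⟩ := hY.1 x trivial
      obtain ⟨r, k2⟩ := hZ.1 (x.map (π ≫ h)) trivial
      have r0 := p0 (q0 k2.2.1)
      have a0 := mul_ne_zero (p0 τ0) k1.2.1
      have a1 := div_ne_zero a0 (pow_ne_zero b₁ r0)
      refine ⟨N₁, p τ * s / p (q r) ^ b₁ * j ^ N₁, N1, mul_ne_zero a1 (pow_ne_zero _ j0),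
        fun E' g => ?_⟩
      change od _ E'.1 = _
      rw [e1 E' s r (gen_gen k1 g) (gen_gen k2 (g.map (π ≫ h).continuous)),
        od_mul a1 (pow_ne_zero _ j0), od_div a0 (pow_ne_zero _ r0), od_mul (p0 τ0) k1.2.1,
        od_pow r0, od_pow j0])
  have n0 : ((n : ℚ) + 1) ≠ 0 := by positivity
  let D : X'.QDiv := ((n : ℚ) / (n + 1)) • C₀' + (1 / ((n : ℚ) + 1)) • C₁
  have hD : ∀ E, (n + 1) * D E = n * C₀' E + C₁ E := fun E => by
    simp only [D, Finsupp.add_apply, Finsupp.smul_apply, smul_eq_mul]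
    field_simp
  have f0 := pow_ne_zero (n * N₁) (mul_ne_zero (p0 φ0) (pow_ne_zero N j0))
  have f1 := pow_ne_zero N (mul_ne_zero (p0 τ0) (pow_ne_zero N₁ j0))
  have f2 := inv_ne_zero (mul_ne_zero f0 f1)
  refine ⟨D, hn D hD, amp X' Z (π ≫ h) _ t' tZ _ ((n + 1) * N * N₁) N (n * N₁ * b + N * b₁)
    ((p φ * j ^ N) ^ (n * N₁) * (p τ * j ^ N₁) ^ N)⁻¹ hq' hY hZ.1 (by positivity) (by omega)
    fun y s r k1 k2 => ?_⟩
  have r0 := p0 (q0 k2.2.1)
  have a0 := mul_ne_zero f2 (pow_ne_zero (n * N₁ * b + N * b₁) r0)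
  refine ⟨div_ne_zero a0 (pow_ne_zero _ k1.2.1), fun E' g => ?_⟩
  have k3 := gen_gen k2 (g.map (π ≫ h).continuous)
  have x0 := e0 E' r k3
  have x1 := e1 E' s r (gen_gen k1 g) k3
  have x2 := hD E'
  change od (_ * p (q r) ^ _ / _) E'.1 = _
  rw [od_div a0 (pow_ne_zero _ k1.2.1), od_mul f2 (pow_ne_zero _ r0), od_inv (mul_ne_zero f0 f1),
    od_mul f0 f1, od_pow r0, od_pow k1.2.1, od_pow (mul_ne_zero (p0 φ0) (pow_ne_zero N j0)),
    od_pow (mul_ne_zero (p0 τ0) (pow_ne_zero N₁ j0)), od_mul (p0 φ0) (pow_ne_zero _ j0),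
    od_mul (p0 τ0) (pow_ne_zero _ j0), od_pow j0, od_pow j0, Pi.neg_apply]
  rw [logCan] at x0 x1 ⊢
  push_cast
  linear_combination (n * N₁ : ℚ) * x0 + (N : ℚ) * x1 + (N * N₁ : ℚ) * x2

end Vale.Agent.P283R.Ft
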