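import Vale.Agent.P283R.Ft.St2
import Vale.Agent.P283R.Ft.Ber11
import Vale.Agent.P287D.Pr.Lr

/-!
# P283R, block FT: klt is an open condition (row `OPN`)
-/

open Set CategoryTheory AlgebraicGeometry

noncomputable section

namespace Vale.Agent.P283R.Ft

open Vale.Agent.P287D Vale.Agent.P297Z
open Vale.Agent.P289 (Pt St toRat val DForm dimension)
open Vale.Agent.P283M Vale.Agent.P283M.Stm Vale.Agent.P283M.Stm.Var
open Vale.Agent.P283M.Br (Dom har fin plc mdc mod frm ffd pl_of dom_S loc_uniq)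
open Cf Cf.Dw

/-- finitely many charts with coordinates inside given open sets -/
theorem B11.chs {X : Var} {Δ : Type} (O : Δ → Set X.X) (hO : ∀ δ, IsOpen (O δ))
    (h : ∀ y : Pt X.X, ∃ δ, y ∈ O δ) :
    ∃ (ι : Type) (_ : Fintype ι) (W : ι → X.X.Opens) (v : ι → Finset X.K) (δ : ι → Δ),
      (∀ x : Pt X.X, ∃ i, x ∈ W i) ∧ ∀ i, (∃ x : Pt X.X, x ∈ O (δ i)) ∧
        (∀ b ∈ v i, ∀ y ∈ W i, RegAt b y) ∧
        (∀ P : Pl X.K, (∀ b ∈ v i, b ∈ P.ring) → ∃ x ∈ W i, Dom P.ring x) ∧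
        ∀ x ∈ W i, x ∈ O (δ i) := by
  have k : ∀ y : Pt X.X, ∃ (W : X.X.Opens) (v : Finset X.K) (δ : Δ), y ∈ W ∧
      (∃ x : Pt X.X, x ∈ O δ) ∧ (∀ b ∈ v, ∀ y ∈ W, RegAt b y) ∧
      (∀ P : Pl X.K, (∀ b ∈ v, b ∈ P.ring) → ∃ x ∈ W, Dom P.ring x) ∧ ∀ x ∈ W, x ∈ O δ :=
    fun y => by
      obtain ⟨δ, hδ⟩ := h y
      obtain ⟨_, ⟨W, hW, rfl⟩, yW, le⟩ :=
        X.X.isBasis_affineOpens.exists_subset_of_mem_open (a := y) hδ (hO δ)
      obtain ⟨v, v1, v2⟩ := Cht.coord P283R.Br.ctr_id (B11.pe_id X) hW yW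
      exact ⟨W, v, δ, yW, ⟨y, hδ⟩, v1, v2, fun x hx => le hx⟩
  choose W v δ h1 h2 using k
  obtain ⟨T, hT⟩ := (isCompact_univ (X := X.X)).elim_finite_subcover
    (fun y : Pt X.X => (W y : Set X.X)) (fun y => (W y).isOpen)
    fun y _ => mem_iUnion.2 ⟨y, h1 y⟩
  refine ⟨T, inferInstance, fun i => W i, fun i => v i, fun i => δ i, fun y => ?_, fun i => h2 i⟩
  obtain ⟨z, z1, z2⟩ := mem_iUnion₂.1 (hT (mem_univ y))
  exact ⟨⟨z, z1⟩, z2⟩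

/-- **OPN** -/
theorem opn11 : OPN := by
  classical
  intro X d ω C₀ C₁ hd hdim hω hC h1 hl
  obtain ⟨n, rfl⟩ := Nat.exists_eq_add_of_le' hd
  have hK := ffd X _ hdim
  obtain ⟨j, j0, fr⟩ := frm X _ hK ω hω
  obtain ⟨ι, _, W, v, δ, cov, ch⟩ := B11.chs (Δ := (ℕ × X.K) × ℕ × X.K)
    (fun δ => ({_x | 0 < δ.1.1 ∧ 0 < δ.2.1} ∩ {x | LocalEq (logCan ω C₀) δ.1.1 δ.1.2 x}) ∩
      {x | LocalEq (logCan ω C₁) δ.2.1 δ.2.2 x})
    (fun δ => (isOpen_const.inter (P283R.Br.open_localEq hK fr _ _ _)).inter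
      (P283R.Br.open_localEq hK fr _ _ _)) fun y => by
    obtain ⟨m, a, m0, ha⟩ := hC.2.1 y trivial
    obtain ⟨l, b, l0, hb⟩ := hl y
    exact ⟨((m, a), l, b), ⟨⟨m0, l0⟩, ha⟩, hb⟩
  let m : ι → ℕ := fun i => (δ i).1.1
  let l : ι → ℕ := fun i => (δ i).2.1
  let a : ι → X.K := fun i => (δ i).1.2
  let b : ι → X.K := fun i => (δ i).2.2
  have p : ∀ i, (0 < m i ∧ 0 < l i) ∧ a i ≠ 0 ∧ b i ≠ 0 := fun i =>
    let ⟨_, h⟩ := (ch i).1
    ⟨h.1.1, h.1.2.1, h.2.1⟩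
  have ea : ∀ i, ∀ x ∈ W i, LocalEq (logCan ω C₀) (m i) (a i) x :=
    fun i x hx => ((ch i).2.2.2 x hx).1.2
  have eb : ∀ i, ∀ x ∈ W i, LocalEq (logCan ω C₁) (l i) (b i) x :=
    fun i x hx => ((ch i).2.2.2 x hx).2
  have op : ∀ i, ∃ ε : ℝ, 0 < ε ∧ ∀ t : ℝ, |t| ≤ ε → ∀ Q : Pl X.K, (∀ c ∈ v i, c ∈ Q.ring) →
      0 < 1 + (cn X.K (n + 1) Q + Q.ord j -
        (Q.ord (a i) / m i + t * (Q.ord (b i) / l i - Q.ord (a i) / m i))) := fun i => by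
    obtain ⟨ε, e0, H⟩ := Pr.open_on (Γ := (m i : ℝ)⁻¹ • dv (a i) - dv j)
      (F := (l i : ℝ)⁻¹ • dv (b i) - (m i : ℝ)⁻¹ • dv (a i)) (Λ := mx (insert 1 (v i)))
      (S := {Q | ∀ c ∈ v i, c ∈ Q.ring}) hK
      (sub_mem (Submodule.smul_mem _ _ (dv_mem_Car _)) (dv_mem_Car _))
      (sub_mem (Submodule.smul_mem _ _ (dv_mem_Car _)) (Submodule.smul_mem _ _ (dv_mem_Car _)))
      (mx_mem_Car _) (fun Q hQ P c a ha => (P283R.Br.cle_aff (Finset.mem_insert_self 1 (v i)) c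
        fun b hb => (Finset.mem_insert.1 hb).elim (fun h => h ▸ one_mem _) (hQ b)).1 a
          (Finset.mem_insert_of_mem ha)) fun Q hQ => by
      obtain ⟨x, s1, s2⟩ := (ch i).2.2.1 Q hQ
      have : (0 : ℝ) < _ := val_pair fr hC trivial s2 (p i).1.1 (ea i x s1)
      simp only [P287D.dsc, Pi.sub_apply, Pi.smul_apply, smul_eq_mul, dv_apply]
      rw [div_eq_inv_mul] at this
      linarith
    refine ⟨ε, e0, fun t ht Q hQ => ?_⟩
    have := H t ht Q hQ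
    simp only [P287D.dsc, Pi.sub_apply, Pi.add_apply, Pi.smul_apply, smul_eq_mul, dv_apply] at this
    rw [div_eq_inv_mul, div_eq_inv_mul]
    linarith
  choose ε e0 H using op
  obtain ⟨N, hN⟩ := (Filter.eventually_all.2 fun i =>
    (tendsto_one_div_add_atTop_nhds_zero_nat (𝕜 := ℝ)).eventually (ge_mem_nhds (e0 i))).exists
  have N0 : (0 : ℝ) < N + 1 := by positivity
  refine ⟨N, fun C e => ?_⟩
  let μ : ι → ℕ := fun i => (N + 1) * (m i * l i)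
  let G : ι → X.K := fun i => a i ^ (N * l i) * b i ^ m i
  have μ0 : ∀ i, 0 < μ i := fun i => Nat.mul_pos N.succ_pos (Nat.mul_pos (p i).1.1 (p i).1.2)
  have μ1 : ∀ i, (0 : ℝ) < μ i := fun i => Nat.cast_pos.2 (μ0 i)
  have oG : ∀ i (P : Pl X.K), P.ord (G i) = N * l i * P.ord (a i) + m i * P.ord (b i) :=
    fun i P => by
      simp only [G]
      rw [Pl.ord_mul _ (pow_ne_zero _ (p i).2.1) (pow_ne_zero _ (p i).2.2), Pl.ord_pow,
        Pl.ord_pow, Nat.cast_mul]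
  have hG : ∀ i, ∀ x ∈ W i, LocalEq (logCan ω C) (μ i) (G i) x := fun i x hx =>
    ⟨mul_ne_zero (pow_ne_zero _ (p i).2.1) (pow_ne_zero _ (p i).2.2), fun E hE => by
      obtain ⟨P, -, o⟩ := pl_of plc E
      have u1 := (ea i x hx).2 E hE
      have u2 := (eb i x hx).2 E hE
      have u3 := e E
      rw [o, logCan] at u1 u2 ⊢
      rw [oG]
      simp only [μ]
      push_cast
      rw [u1, u2]
      linear_combination -((m i : ℚ) * l i) * u3⟩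
  refine ⟨fun E _ => ?_, fun ξ _ => ?_, fun Mo E _ r c r0 hc => ?_⟩
  · have := add_nonneg (mul_nonneg (Nat.cast_nonneg N) (hC.1 E trivial)) (h1 E)
    rw [← e] at this
    exact nonneg_of_mul_nonneg_right this (by positivity)
  · obtain ⟨i, s1⟩ := cov ξ
    exact ⟨_, _, μ0 i, hG i _ s1⟩
  · obtain ⟨⟨Q, u⟩, o⟩ := plc X Mo.Y Mo.pull (mdc X Mo).1 E
    have dm := (mdc X Mo).2 E Q u
    obtain ⟨i, s1⟩ := cov (E.1.map Mo.π)
    have t := loc_uniq har plc hc (hG i _ s1) dm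
    have r1 : (r : ℝ) ≠ 0 := Nat.cast_ne_zero.2 r0.ne'
    have t' : (Q.ord c : ℝ) / r = Q.ord (G i) / μ i := by
      rw [div_eq_div_iff r1 (μ1 i).ne']
      linarith
    have m1 : (m i : ℝ) ≠ 0 := Nat.cast_ne_zero.2 (p i).1.1.ne'
    have l1 : (l i : ℝ) ≠ 0 := Nat.cast_ne_zero.2 (p i).1.2.ne'
    have k := H i _ ((abs_of_pos (one_div_pos.2 N0)).trans_le (hN i)) Q
      fun b hb => (dm b ((ch i).2.1 b hb _ s1)).1
    show 0 < _
    rw [fr _ _ E Q u (o Q u), o Q u, t', oG]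
    refine k.trans_eq ?_
    simp only [μ]
    push_cast
    field_simp
    ring

end Vale.Agent.P283R.Ft
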