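import Vale.Agent.P283R.Ft.On7
import Vale.Agent.P283R.Ft.Amp9
import Vale.Agent.P283R.Ft.Ber11
import Vale.Agent.P283R.Ft.Glb90
import Vale.Agent.P283R.Ft.Glu58

/-!
# P283R, block FT: the assembly
-/

open CategoryTheory AlgebraicGeometry

namespace Vale.Agent.P283R

theorem Ft.ftd : Ft.FTD := Ft.glu58 Ft.amp9 Ft.glb90 Ft.ber11

namespace Sl

open Var

/-- chains of contractions over a class or over a germ, after an étale base change -/
theorem literal7 {C : ∀ (d : ℕ) (X Z : Var), (X.X ⟶ Z.X) → X.Form d → Pt Z.X → Prop}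
    (h : OnN fun d X Z f ω _ z => C d X Z f ω z) :
    ∀ d : ℕ, 1 ≤ d → ∀ ε : ℝ, 0 < ε → ∀ R : Finset ℚ, (∀ r ∈ R, 0 ≤ r ∧ r ≤ 1) →
    ∃ n : ℕ, 1 ≤ n ∧ ∀ (X Z : Var) (f : X.X ⟶ Z.X) (ω : X.Form d) (B : X.QDiv)
      (z : Pt Z.X), dimension X.str = d → ω.Nonzero → Pair (ε ≤ ·) (all X.X) ω B →
      (∀ y, B.coeff y ≠ 0 → B.coeff y ∈ R) → Contraction f → FanoType f ω →
      NefOver f (-logCan ω B) → z.Closed →
      EtLocal (fun Y W g (η : Y.Form d) D w =>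
        (∃ (e : ℕ) (T : Var) (a : Y.X ⟶ T.X) (h : T.X ⟶ W.X) (θ : T.Form e),
          dimension T.str = e ∧ 1 ≤ e ∧ θ.Nonzero ∧ a ≫ h = g ∧ Chain a ∧
          TrivialOver a η D ∧ C e T W h θ w) ∨
        ∃ e : ℕ, dimension W.str = e ∧ 1 ≤ e ∧ Chain g ∧ TrivialOver g η D ∧
          (LciqOr (e = d ∧ SameCoeff g D.coeff 0) W w ∨ 3 ≤ e ∧ MildCover e (e - 3) W w)) f B z →
      HasKltComplement f ω B n z := literal_of Ft.ftd h

end Sl

end Vale.Agent.P283R
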