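import Vale.Agent.P283R.Ft.St2
import Vale.Agent.P283R.To.GlSum
import Vale.Agent.P287D.Iso.Can

/-!
# P283R, block FT: the row `CRP`
-/

set_option linter.all false

open Set CategoryTheory AlgebraicGeometry

noncomputable section

namespace Vale.Agent.P283R.Ft

open Vale.Agent.P287D Vale.Agent.P297Z
open Vale.Agent.P289 (Pt)
open Vale.Agent.P283M Vale.Agent.P283M.Stm Vale.Agent.P283M.Stm.Var Vale.Agent.P283M.Br
open Vale.Agent.P283R.Gl Vale.Agent.P283R.Et

/-- **CRP** -/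
theorem crp61 : CRP := by
  intro X' X π p d ω ω' ov pe sm d1 dX dX' w0 w0'
  have pc : ∀ c : ℂ, p (algebraMap ℂ X.K c) = algebraMap ℂ X'.K c := pe.cst ov
  have S : Semi (p : X.K →+* X'.K) := ⟨p.surjective, fun c => ⟨c, (pc c).symm⟩, fun c => ⟨c, pc c⟩⟩
  obtain ⟨h, h0, H⟩ := frm X d (ffd X d dX) ω w0
  obtain ⟨h', h0', H'⟩ := frm X' d (ffd X' d dX') ω' w0'
  have p0 : ∀ {v}, v ≠ 0 → p v ≠ 0 := fun e => (map_ne_zero p).2 e
  have q0 := mul_ne_zero (p0 h0) (S.cf_ne d)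
  set j := h' / (p h * S.cf d) with hj
  have j0 : j ≠ 0 := div_ne_zero h0' q0
  have fo : ∀ (Y : Var) (r : X'.K ≃+* Y.K) (E : Y.PrimeDiv) (P : Pl X.K), Is r E (S.pl P) →
      (∀ g, ord (r g) E = (S.pl P).ord g) →
      formOrd ω' r E = formOrd ω (p.trans r) E + ord (r j) E := fun Y r E P a b => by
    have e1 := H' Y r E _ a b
    have e2 := H Y (p.trans r) E P (fun g => S.mem_pl.symm.trans (a _)) fun g =>
      (b _).trans (S.ord_pl P g)
    have e3 := congrFun (S.pb_cn d) (S.pl P)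
    rw [S.pb_pl, Pi.add_apply, dv_apply] at e3
    have e4 : (S.pl P).ord (p h) = P.ord h := S.ord_pl P h
    rw [← Int.cast_inj (α := ℝ), b, hj, Pl.ord_div _ h0' q0, Pl.ord_mul _ (p0 h0) (S.cf_ne d), e4]
    push_cast
    linarith
  let c : X'.PrimeDiv → X.PrimeDiv := fun E => ⟨E.1.map π, sm E⟩
  have cq : ∀ E, S.pl (pq (c E)) = pq E := fun E => Pl.ext' (congrArg _ (Pl.eq_of_le'
    (v := (S.pl (pq (c E))).toPlace) (w := (pq E).toPlace) fun f hf => by
      obtain ⟨g, rfl⟩ := S.sur f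
      exact (pq_is E _).2 (pe.reg ((pq_is (c E) g).1 (S.mem_pl.1 hf)))))
  have co : ∀ E a, ord (p a) E = ord a (c E) := fun E a => by
    rw [pq_ord, pq_ord, ← cq]
    exact S.ord_pl _ a
  have cr : ∀ E a, RegAt (p a) E.1 ↔ RegAt a (c E).1 := fun E a =>
    (pq_is E _).symm.trans ((cq E ▸ S.mem_pl).trans (pq_is (c E) a))
  have cf : ∀ E, formOrd ω' (RingEquiv.refl _) E =
      formOrd ω (RingEquiv.refl _) (c E) + ord j E := fun E => by
    rw [fo X' (RingEquiv.refl _) E (pq (c E)) ((cq E).symm ▸ pq_is E)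
      fun g => (cq E).symm ▸ pq_ord E g]
    simp only [formOrd, RingEquiv.trans_apply, RingEquiv.refl_apply, co, cr]
  refine ⟨j, c, j0, fun E E' e => Subtype.ext (Crv.dom_unique (dom_S (pq_is E).dom) (dom_S
    ((show pq E' = pq E by rw [← cq, ← cq, e]) ▸ (pq_is E').dom))), fun E => ⟨rfl, co E, cf E⟩,
    fun s C C' hC ⟨a1, a2, a3⟩ => ?_⟩
  have le : ∀ (x : Pt X'.X) m g, LocalEq (logCan ω C) m g (x.map π) →
      LocalEq (logCan ω' C') m (p g * j ^ m) x := fun x m g l =>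
    ⟨mul_ne_zero (p0 l.1) (pow_ne_zero _ j0), fun E e => by
      have := l.2 (c E) (e.map π.continuous)
      rw [pq_ord, Pl.ord_mul _ (p0 l.1) (pow_ne_zero _ j0), Pl.ord_pow, ← pq_ord, ← pq_ord, co,
        logCan, cf, hC]
      rw [logCan] at this
      push_cast
      linarith⟩
  refine ⟨fun E _ => hC E ▸ a1 _ trivial, fun x _ => ?_, fun M E _ m g m0 l => ?_⟩
  · obtain ⟨m, g, m0, l⟩ := a2 (Pt.map π x) trivial
    exact ⟨m, _, m0, le x m g l⟩
  let N : Model X := ⟨M.Y, M.π ≫ π, by rw [Category.assoc, ov, M.over], M.smooth, p.trans M.pull,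
    fun y a => by
      refine (congrArg M.pull (pe (y.map M.π) a)).trans ((M.pull_eq y _).trans ?_)
      rw [Scheme.Hom.stalkMap_comp]
      rfl⟩
  obtain ⟨m₀, g₀, n0, l₀⟩ := a2 (Pt.map π (E.1.map M.π)) trivial
  have k := a3 N E trivial m₀ g₀ n0 l₀
  obtain ⟨⟨P, i⟩, o⟩ := plc X' M.Y M.pull (mdc X' M).1 E
  have o := o P i
  have u := loc_uniq har plc l (le _ _ _ l₀) ((mdc X' M).2 E P i)
  obtain ⟨P, rfl⟩ := S.pl.surjective P
  rw [fo M.Y M.pull E P i o, o, o]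
  rw [Pl.ord_mul _ (p0 l₀.1) (pow_ne_zero _ j0), Pl.ord_pow] at u
  have k' : s (1 + (formOrd ω (p.trans M.pull) E - (ord (M.pull (p g₀)) E : ℝ) / m₀)) := k
  rw [o] at k'
  convert k' using 2
  have : (m : ℝ) ≠ 0 := by positivity
  have : (m₀ : ℝ) ≠ 0 := by positivity
  push_cast at u ⊢
  field_simp
  linarith

end Vale.Agent.P283R.Ft
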