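import Vale.Agent.P283R.Ft.St
import Vale.Agent.P283R.To.GlSum

/-!
# P283R, block FT: the descent of the Fano type
-/

open Set CategoryTheory AlgebraicGeometry

noncomputable section

namespace Vale.Agent.P283R.Ft

open Vale.Agent.P287D Vale.Agent.P297Z
open Vale.Agent.P289 (Pt DForm dimension toRat)
open Vale.Agent.P283M Vale.Agent.P283M.Stm Vale.Agent.P283M.Stm.Var
open Vale.Agent.P283M.Br (GenAt Bpf Dom har plc frm ffd pl_of reg_gen)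
open Vale.Agent.P283R.Et (Pe)

namespace G35

variable {X Y Z : Var} {g : X.X ⟶ Y.X} {h : Y.X ⟶ Z.X} {p : Y.K →+* X.K} {q : Z.K →+* Y.K}
  {a b : X.K}

theorem pe_comp (hp : Pe g p) (hq : Pe h q) : Pe (g ≫ h) (p.comp q) := fun x a => by
  refine (congrArg p (hq (x.map g) a)).trans ((hp x _).trans (congrArg toRat ?_))
  exact (DFunLike.congr_fun (congrArg CommRingCat.Hom.hom (Scheme.Hom.stalkMap_comp g h x)) a).symm

theorem gen_gen {t : Finset X.K} {x x' : Pt X.X} (h : GenAt t a x) (s : x' ⤳ x) : GenAt t a x' :=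
  ⟨h.1, h.2.1, fun c hc => reg_gen s (h.2.2 c hc)⟩

open Classical in
theorem gen_pull (hp : Pe g p) {t : Finset Y.K} {σ : Y.K} {x : Pt X.X}
    (h : GenAt t σ (x.map g)) : GenAt (t.image p) (p σ) x :=
  ⟨Finset.mem_image_of_mem p h.1, (map_ne_zero p).2 h.2.1, fun c hc => by
    obtain ⟨c', hc', rfl⟩ := Finset.mem_image.1 hc
    rw [← map_div₀]
    exact hp.reg (h.2.2 c' hc')⟩

theorem omul (ha : a ≠ 0) (hb : b ≠ 0) (E : X.PrimeDiv) :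
    (ord (a * b) E : ℚ) = ord a E + ord b E := by
  obtain ⟨Q, -, o⟩ := pl_of plc E
  rw [o, o, o, Pl.ord_mul _ ha hb, Int.cast_add]

theorem odiv (ha : a ≠ 0) (hb : b ≠ 0) (E : X.PrimeDiv) :
    (ord (a / b) E : ℚ) = ord a E - ord b E := by
  obtain ⟨Q, -, o⟩ := pl_of plc E
  rw [o, o, o, Pl.ord_div _ ha hb, Int.cast_sub]

theorem opow (a : X.K) (k : ℕ) (E : X.PrimeDiv) : (ord (a ^ k) E : ℚ) = k * ord a E := by
  obtain ⟨Q, -, o⟩ := pl_of plc E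
  rw [o, o, Pl.ord_pow, Int.cast_mul, Int.cast_natCast]

/-- a prime divisor over a prime divisor of the base -/
theorem ovr (hg : Contraction g) (hp : Pe g p) (F : Y.PrimeDiv) : ∃ (E : X.PrimeDiv) (e : ℚ),
    0 < e ∧ E.1.map g = F.1 ∧ ∀ c, (ord (p c) E : ℚ) = e * ord c F := by
  obtain ⟨Q, i, o⟩ := pl_of plc F
  obtain ⟨P, ⟨E, hE⟩, l⟩ := (Cf.prm X Y g p hg hp).1 Q ⟨F, i.dom⟩
  obtain ⟨P', i', o'⟩ := pl_of plc E
  obtain rfl := Br.pl_eq i' hE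
  refine ⟨E, P'.ord (p Q.t), Int.cast_pos.2 l.e_pos,
    Cf.Dw.uq ((Cf.prm X Y g p hg hp).2 _ _ hE Q l) i.dom, fun c => ?_⟩
  rw [o', o, l.ord, Int.cast_mul]

/-- a function which is regular along a fibre comes from the base -/
theorem down (hg : Contraction g) (hp : Pe g p) (y : Pt Y.X) {u : X.K}
    (hu : ∀ x : Pt X.X, x.map g = y → RegAt u x) : ∃ c, p c = u := by
  have := hg.2.1
  have o := (g.isClosedMap _ (Gl.open_reg u).isClosed_compl).isOpen_compl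
  exact Cf.Cht.down hg hp (V := ⟨_, o⟩) (y := y) (fun ⟨x, b, c⟩ => b (hu x c))
    fun x hx => by_contra fun c => hx ⟨x, c, rfl⟩

end G35

open G35

theorem glu35 : GLU := by
  classical
  intro amp glb ber X Y Z g h p d r ω η hg hp hh hd hdim hω hη tw ⟨C, hC, hA⟩
  obtain ⟨tY, aY⟩ := Gl.amz Y
  obtain ⟨tZ, aZ⟩ := Gl.amz Z
  obtain ⟨q, hq⟩ := Cf.Fto.exists_pe h
  have hK := ffd X _ hdim
  obtain ⟨j, -, fr⟩ := frm X _ hK ω hω
  have d1 : 1 ≤ d + r := hd.trans (Nat.le_add_right d r)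
  have fin : {E | (-logCan ω C) E ≠ 0}.Finite :=
    ((Cf.Dw.form_fin' d1 hK fr).union C.support.finite_toSet).subset fun E e => by
      by_contra n
      simp only [mem_union, mem_ofPred_eq, Finset.mem_coe, Finsupp.mem_support_iff, not_or,
        not_not] at n
      exact e (by simp [logCan, n.1, n.2])
  obtain ⟨N, a, b, t, N2, a0, ht, eq⟩ := glb X Z (g ≫ h) (p.comp q) _ (tY.image p) tZ
    (pe_comp hp hq) fin hA
    (fun x _ => let ⟨σ, s⟩ := aY.1 (Pt.map g x) trivial; ⟨_, gen_pull hp s⟩) aZ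
  obtain ⟨φ, C', ε, k, φ0, ε0, k0, hC', int, co⟩ := ber X _ N ω C t d1 hdim hω hC ht N2
  have N0 : (N : ℚ) ≠ 0 := Nat.cast_ne_zero.2 (by omega)
  have p0 : ∀ {c : Y.K}, c ≠ 0 → p c ≠ 0 := fun k => (map_ne_zero p).2 k
  have q0 : ∀ {c : Z.K}, c ≠ 0 → q c ≠ 0 := fun k => (map_ne_zero q).2 k
  have key : ∀ (E : X.PrimeDiv) σ ρ, GenAt tY σ (E.1.map g) → GenAt tZ ρ ((E.1.map g).map h) →
      N * logCan ω C' E = ord φ E + a * ord (p σ) E - b * ord (p (q ρ)) E := fun E σ ρ s u => by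
    obtain ⟨τ, v⟩ := ht E.1 trivial
    have e1 := (eq E.1 τ (p σ) ρ v (gen_pull hp s) u).2 E specializes_rfl
    have e2 := co E τ v
    rw [RingHom.comp_apply,
      odiv (pow_ne_zero _ (p0 (q0 u.2.1))) (mul_ne_zero v.2.1 (pow_ne_zero _ (p0 s.2.1))),
      omul v.2.1 (pow_ne_zero _ (p0 s.2.1)), opow, opow, Pi.neg_apply, logCan] at e1
    rw [odiv φ0 v.2.1] at e2
    rw [logCan, e2]
    field_simp
    linarith
  have sp : ∀ {E : X.PrimeDiv} {x : Pt X.X}, E.1 ⤳ x → E.1.map g ⤳ x.map g := fun s =>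
    s.map g.continuous
  have sp' : ∀ {y y' : Pt Y.X}, y ⤳ y' → y.map h ⤳ y'.map h := fun s => s.map h.continuous
  have triv : Cf.Triv g (logCan ω C') := fun y => by
    obtain ⟨σ, s⟩ := aY.1 y trivial
    obtain ⟨ρ, u⟩ := aZ.1 (y.map h) trivial
    have n1 := pow_ne_zero a (p0 s.2.1)
    have n2 := pow_ne_zero b (p0 (q0 u.2.1))
    refine ⟨N, φ * p σ ^ a / p (q ρ) ^ b, by omega, ?_⟩
    rintro x rfl
    refine ⟨div_ne_zero (mul_ne_zero φ0 n1) n2, fun E s' => ?_⟩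
    rw [key E σ ρ (gen_gen s (sp s')) (gen_gen u (sp' (sp s'))), odiv (mul_ne_zero φ0 n1) n2,
      omul φ0 n1, opow, opow]
  obtain ⟨R, M₀, ε', -, -, ε1, dw⟩ := Cf.dwn r k ε k0 ε0
  obtain ⟨Δ, hΔ, -, ⟨M, θ, M0, θ0, pu⟩, -⟩ :=
    dw X Y g p hg hp d ω η C' hd hdim hω hη hC' int triv tw
  have k2 : ∀ (E : X.PrimeDiv) m c, LocalEq (logCan η Δ) m c (E.1.map g) →
      (m : ℚ) * ord θ E + M * ord (p c) E = M * m * logCan ω C' E := fun E m c e => by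
    have := (pu E.1 m c e).2 E specializes_rfl
    rwa [omul (pow_ne_zero _ θ0) (pow_ne_zero _ (p0 e.1)), opow, opow, Nat.cast_mul] at this
  have y₀ : Pt Y.X := genericPoint Y.X
  obtain ⟨m₀, c₀, m0, e₀⟩ := hΔ.2.1 y₀ trivial
  obtain ⟨σ₀, s₀⟩ := aY.1 y₀ trivial
  obtain ⟨ρ₀, u₀⟩ := aZ.1 (y₀.map h) trivial
  have n0 := pow_ne_zero m₀ (div_ne_zero (pow_ne_zero N θ0) (pow_ne_zero M φ0))
  have n1 := div_ne_zero (pow_ne_zero (M * m₀) (div_ne_zero (pow_ne_zero a s₀.2.1)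
    (pow_ne_zero b (q0 u₀.2.1)))) (pow_ne_zero (M * N) e₀.1)
  obtain ⟨c₁, hc⟩ := down hg hp y₀ (u := (θ ^ N / φ ^ M) ^ m₀ /
      p ((σ₀ ^ a / q ρ₀ ^ b) ^ (M * m₀) / c₀ ^ (M * N))) (by
    rintro x rfl
    refine har X _ _ fun E s' => Int.cast_nonneg_iff (R := ℚ) |>.1 (le_of_eq ?_)
    have e1 := key E σ₀ ρ₀ (gen_gen s₀ (sp s')) (gen_gen u₀ (sp' (sp s')))
    have e2 := k2 E m₀ c₀ (Cf.Dw.gen e₀ (sp s'))
    rw [odiv n0 (p0 n1), opow, odiv (pow_ne_zero N θ0) (pow_ne_zero M φ0), opow, opow, map_div₀,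
      map_pow, map_pow, map_div₀, map_pow, map_pow,
      odiv (pow_ne_zero _ (div_ne_zero (pow_ne_zero a (p0 s₀.2.1))
        (pow_ne_zero b (p0 (q0 u₀.2.1))))) (pow_ne_zero _ (p0 e₀.1)), opow, opow,
      odiv (pow_ne_zero a (p0 s₀.2.1)) (pow_ne_zero b (p0 (q0 u₀.2.1))), opow, opow]
    push_cast
    linear_combination (-N : ℚ) * e2 - M * m₀ * e1)
  obtain ⟨θ₁, h1⟩ : ∃ θ₁, p θ₁ = (θ ^ N / φ ^ M) ^ m₀ :=
    ⟨c₁ * ((σ₀ ^ a / q ρ₀ ^ b) ^ (M * m₀) / c₀ ^ (M * N)), by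
      rw [map_mul, hc, div_mul_cancel₀ _ (p0 n1)]⟩
  have t0 : θ₁ ≠ 0 := fun e => n0 (by rw [← h1, e, map_zero])
  refine ⟨Δ, ⟨hΔ.1, hΔ.2.1, fun Mo E a m c m0 e => ε1.trans_le (hΔ.2.2 Mo E a m c m0 e)⟩,
    amp Y Z h q tY tZ _ (m₀ * M * N) (m₀ * M * a) (m₀ * M * b) θ₁ hq aY aZ.1
      (Nat.mul_pos (Nat.mul_pos m0 M0) (by omega)) (Nat.mul_pos (Nat.mul_pos m0 M0) a0)
      fun y σ ρ s u => ?_⟩
  have n2 := pow_ne_zero (m₀ * M * b) (q0 u.2.1)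
  have n3 := pow_ne_zero (m₀ * M * a) s.2.1
  refine ⟨div_ne_zero (mul_ne_zero t0 n2) n3, fun F s' => ?_⟩
  obtain ⟨E, e, e0, hE, o⟩ := ovr hg hp F
  obtain ⟨m, c, m1, ec⟩ := hΔ.2.1 F.1 trivial
  have e1 := key E σ ρ (hE ▸ gen_gen s s') (hE ▸ gen_gen u (sp' s'))
  have e2 := k2 E m c (hE ▸ ec)
  have e3 := ec.2 F specializes_rfl
  have e4 := o θ₁
  rw [h1, opow, odiv (pow_ne_zero N θ0) (pow_ne_zero M φ0), opow, opow] at e4
  rw [o, o] at e1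
  rw [o, e3] at e2
  rw [odiv (mul_ne_zero t0 n2) n3, omul t0 n2, opow, opow, Pi.neg_apply]
  have m' : (m : ℚ) ≠ 0 := Nat.cast_ne_zero.2 m1.ne'
  have e5 : (ord θ E : ℚ) + M * (e * logCan η Δ F) = M * logCan ω C' E :=
    mul_left_cancel₀ m' (by linear_combination e2)
  refine mul_left_cancel₀ e0.ne' ?_
  push_cast
  linear_combination (-1 : ℚ) * e4 + m₀ * N * e5 + m₀ * M * e1

end Vale.Agent.P283R.Ft
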