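import Vale.Agent.P283R.Ft.St2
import Vale.Agent.P283R.Ft.Glu35

/-!
# P283R, block FT: the ascent of the Fano type along small modifications
-/

open Set CategoryTheory AlgebraicGeometry

noncomputable section

namespace Vale.Agent.P283R.Ft

open Vale.Agent.P287D Vale.Agent.P297Z
open Vale.Agent.P289 (Pt DForm dimension toRat)
open Vale.Agent.P283M Vale.Agent.P283M.Stm Vale.Agent.P283M.Stm.Var
open Vale.Agent.P283M.Br (GenAt Bpf Dom har plc frm ffd pl_of reg_gen)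
open Vale.Agent.P283R.Et (Pe)
open G35

namespace A35

variable {X : Var} {a b : X.K}

theorem nn {E : X.PrimeDiv} (h : RegAt a E.1) : (0 : ℚ) ≤ ord a E := by
  obtain ⟨Q, i, o⟩ := pl_of plc E
  rw [o]
  exact_mod_cast Pl.ord_nonneg_of_mem _ ((i a).2 h)

theorem same {t : Finset X.K} {E : X.PrimeDiv} (h : GenAt t a E.1) (h' : GenAt t b E.1) :
    (ord a E : ℚ) = ord b E := by
  have e1 := nn (h.2.2 b h'.1)
  have e2 := nn (h'.2.2 a h.1)
  rw [odiv h'.2.1 h.2.1] at e1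
  rw [odiv h.2.1 h'.2.1] at e2
  linarith

theorem one (x : Pt X.X) : GenAt {1} (1 : X.K) x :=
  ⟨Finset.mem_singleton_self _, one_ne_zero, fun c hc => by
    rw [Finset.mem_singleton.1 hc, div_one]
    exact ⟨1, map_one _⟩⟩

end A35

open A35

theorem gla35 : GLA := by
  classical
  intro amp glb ber big opn crp X' X Z π h p d ω ω' hs hp sm hh hd hdim hdim' hω hω' ⟨C, hC, hA⟩
  obtain ⟨t', a'⟩ := Gl.amz X'
  obtain ⟨tZ, aZ⟩ := Gl.amz Z
  obtain ⟨q, hq⟩ := Cf.Fto.exists_pe h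
  have hq' := pe_comp hp hq
  have hK := ffd X _ hdim
  obtain ⟨j₀, -, fr⟩ := frm X _ hK ω hω
  have fin : {E | (-logCan ω C) E ≠ 0}.Finite :=
    ((Cf.Dw.form_fin' hd hK fr).union C.support.finite_toSet).subset fun E e => by
      by_contra n
      simp only [mem_union, mem_ofPred_eq, Finset.mem_coe, Finsupp.mem_support_iff, not_or,
        not_not] at n
      exact e (by simp [logCan, n.1, n.2])
  obtain ⟨N, a, b, t, N2, -, ht, eq⟩ := glb X Z h q _ {1} tZ hq fin hA (fun x _ => ⟨1, one x⟩) aZ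
  obtain ⟨φ, C₀, ε, -, φ0, ε0, -, hC₀, -, co⟩ := ber X _ N ω C t hd hdim hω hC ht N2
  obtain ⟨j, c, j0, ci, hc, pr⟩ := crp X' X π p d ω ω' hs hp sm hd hdim hdim' hω hω'
  obtain ⟨N₁, b₁, τ, N1, τ0, bg⟩ := big X Z h q _ (t'.image p.symm) tZ hq fin hA aZ
  have N0 : (N : ℚ) ≠ 0 := Nat.cast_ne_zero.2 (by omega)
  have N1' : (N₁ : ℚ) ≠ 0 := Nat.cast_ne_zero.2 N1.ne'
  have p0 : ∀ {c : X.K}, c ≠ 0 → p c ≠ 0 := fun k => (map_ne_zero p).2 k
  have q0 : ∀ {c : Z.K}, c ≠ 0 → q c ≠ 0 := fun k => (map_ne_zero q).2 k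
  have key : ∀ (E : X.PrimeDiv) ρ, GenAt tZ ρ (E.1.map h) →
      N * logCan ω C₀ E = ord φ E - b * ord (q ρ) E := fun E ρ u => by
    obtain ⟨τ, v⟩ := ht E.1 trivial
    have e1 := (eq E.1 τ 1 ρ v (one _) u).2 E specializes_rfl
    have e2 := co E τ v
    rw [one_pow, mul_one, odiv (pow_ne_zero _ (q0 u.2.1)) v.2.1, opow, Pi.neg_apply, logCan] at e1
    rw [odiv φ0 v.2.1] at e2
    rw [logCan, e2]
    field_simp
    linarith
  choose σ hσ using fun E : X'.PrimeDiv => a'.1 E.1 trivial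
  choose ρ hρ using fun E : X'.PrimeDiv => aZ.1 ((E.1.map π).map h) trivial
  let F : X'.PrimeDiv → ℚ := fun E => C (c E) +
    (ord (p τ * σ E / p (q (ρ E)) ^ b₁) E + N₁ * (-logCan ω C) (c E)) / N₁
  have fF : (Function.support F).Finite := by
    refine (((C.support.finite_toSet.preimage ci.injOn).union (fin.preimage ci.injOn)).union
      (t'.finite_toSet.biUnion fun s _ => tZ.finite_toSet.biUnion fun r _ =>
        Br.fin X' (p τ * s / p (q r) ^ b₁))).subset fun E e => ?_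
    by_contra n
    simp only [mem_union, mem_preimage, mem_ofPred_eq, Finset.mem_coe, Finsupp.mem_support_iff,
      not_or, not_not, mem_iUnion, not_exists] at n
    exact e (by simp only [F, n.1.1, n.1.2, n.2 _ (hσ E).1 _ (hρ E).1]; simp)
  let C₁ : X'.QDiv := Finsupp.ofSupportFinite F fF
  have c1 : ∀ E, C₁ E = F E := fun _ => rfl
  have k1 : ∀ (E : X'.PrimeDiv) s r, GenAt t' s E.1 → GenAt tZ r ((E.1.map π).map h) →
      N₁ * logCan ω' C₁ E = N₁ * ord j E + ord (p τ) E + ord s E - b₁ * ord (p (q r)) E :=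
    fun E s r u v => by
      have e1 := same u (hσ E)
      have e2 : (ord (p (q r)) E : ℚ) = ord (p (q (ρ E))) E :=
        same (gen_pull hq' v) (gen_pull hq' (hρ E))
      rw [logCan, c1, (hc E).2.2, e1, e2]
      simp only [F]
      rw [odiv (mul_ne_zero (p0 τ0) (hσ E).2.1) (pow_ne_zero _ (p0 (q0 (hρ E).2.1))),
        omul (p0 τ0) (hσ E).2.1, opow, Pi.neg_apply, logCan]
      push_cast
      field_simp
      ring
  have sp : ∀ {y y' : Pt X'.X}, y ⤳ y' → (y.map π).map h ⤳ (y'.map π).map h := fun s =>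
    (s.map π.continuous).map h.continuous
  let C₀' : X'.QDiv := Finsupp.comapDomain c C₀ ci.injOn
  obtain ⟨n, hn⟩ := opn X' d ω' C₀' C₁ hd hdim' hω' (pr _ C₀ C₀' (fun _ => rfl)
    ⟨hC₀.1, hC₀.2.1, fun Mo E a m c m0 e => ε0.trans_le (hC₀.2.2 Mo E a m c m0 e)⟩)
    (fun E => by
      have := bg (c E) (ρ E) ((hc E).1 ▸ hρ E) _ (Finset.mem_image_of_mem _ (hσ E).1)
        ((map_ne_zero p.symm).2 (hσ E).2.1)
      rw [← (hc E).2.1, map_div₀, map_mul, map_pow, RingEquiv.apply_symm_apply] at this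
      exact add_nonneg (hC.1 _ trivial) (div_nonneg this (Nat.cast_nonneg _)))
    fun x => by
      obtain ⟨s, u⟩ := a'.1 x trivial
      obtain ⟨r, v⟩ := aZ.1 ((x.map π).map h) trivial
      have n1 := mul_ne_zero (pow_ne_zero N₁ j0) (p0 τ0)
      have n2 := pow_ne_zero b₁ (p0 (q0 v.2.1))
      refine ⟨N₁, j ^ N₁ * p τ * s / p (q r) ^ b₁, N1, div_ne_zero (mul_ne_zero n1 u.2.1) n2,
        fun E e => ?_⟩
      rw [k1 E s r (gen_gen u e) (gen_gen v (sp e)), odiv (mul_ne_zero n1 u.2.1) n2,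
        omul n1 u.2.1, omul (pow_ne_zero N₁ j0) (p0 τ0), opow, opow]
  have n0 : (n + 1 : ℚ) ≠ 0 := by positivity
  let Δ : X'.QDiv := (n / (n + 1) : ℚ) • C₀' + (1 / (n + 1) : ℚ) • C₁
  have hΔ : ∀ E, (n + 1) * Δ E = n * C₀' E + C₁ E := fun E => by
    simp only [Δ, Finsupp.add_apply, Finsupp.smul_apply, smul_eq_mul]
    field_simp
  have m1 := pow_ne_zero (n * N₁) (p0 φ0)
  have m2 := pow_ne_zero ((n + 1) * N * N₁) j0
  have m3 := pow_ne_zero N (p0 τ0)
  have m4 := mul_ne_zero (mul_ne_zero m1 m2) m3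
  refine ⟨Δ, hn Δ hΔ, amp X' Z (π ≫ h) _ t' tZ _ ((n + 1) * N * N₁) N (n * N₁ * b + N * b₁)
    (1 / (p φ ^ (n * N₁) * j ^ ((n + 1) * N * N₁) * p τ ^ N)) hq' a' aZ.1
    (Nat.mul_pos (Nat.mul_pos n.succ_pos (by omega)) N1) (by omega) fun y s r u v => ?_⟩
  have m5 := one_div_ne_zero m4
  have m6 := pow_ne_zero (n * N₁ * b + N * b₁) (p0 (q0 v.2.1))
  have m7 := pow_ne_zero N u.2.1
  refine ⟨div_ne_zero (mul_ne_zero m5 m6) m7, fun E e => ?_⟩
  have e1 := k1 E s r (gen_gen u e) (gen_gen v (sp e))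
  have e2 := key (c E) r ((hc E).1 ▸ gen_gen v (sp e))
  have e3 := hΔ E
  have e4 : C₀' E = C₀ (c E) := rfl
  have e5 : (ord (1 : X'.K) E : ℚ) = 0 := by simpa using opow (1 : X'.K) 0 E
  rw [← (hc E).2.1, ← (hc E).2.1, logCan] at e2
  rw [logCan, (hc E).2.2] at e1
  change (ord (_ * p (q r) ^ _ / _) E : ℚ) = _
  rw [odiv (mul_ne_zero m5 m6) m7, omul m5 m6, odiv one_ne_zero m4, omul (mul_ne_zero m1 m2) m3,
    omul m1 m2, opow, opow, opow, opow, opow, e5, Pi.neg_apply, logCan, (hc E).2.2]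
  rw [e4] at e3
  push_cast at e1 ⊢
  linear_combination N * N₁ * e3 + n * N₁ * e2 + N * e1

end Vale.Agent.P283R.Ft
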