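import Vale.Agent.P283R.Ft.St

/-!
# P283R, block FT: a relatively ample divisor plus a pull back is free on the whole variety
-/

set_option linter.all false

open Set CategoryTheory AlgebraicGeometry TopologicalSpace Order

noncomputable section

namespace Vale.Agent.P283R.Ft

open Vale.Agent.P289 (Pt)
open Vale.Agent.P283M.Stm Vale.Agent.P283M.Stm.Var Vale.Agent.P283M.Br Vale.Agent.P283M.Am
open Vale.Agent.P283R.Et (Pe)

namespace G54

variable {X : Var} {D E H : X.X → ℚ} {x : X.X} {W : X.X.Opens} {s : Finset X.K}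

/-- generated at `x` by a global section -/
def Fr (D : X.X → ℚ) (x : X.X) : Prop := ∃ τ : X.K, (∀ p, Sc D τ p) ∧ Gn D τ x

theorem Fr.add (h : Fr D x) (k : Fr E x) : Fr (D + E) x :=
  let ⟨_, a, b⟩ := h; let ⟨_, c, d⟩ := k; ⟨_, fun p => (a p).mul (c p), b.mul d⟩

theorem Fr.pow (h : Fr D x) (n : ℕ) : Fr ((n : ℚ) • D) x :=
  let ⟨_, a, b⟩ := h; ⟨_, fun p => (a p).pow n, b.pow n⟩

theorem fs_of (h : Sys ⊤ D s) : Fs D := by
  refine (s.finite_toSet.biUnion fun g _ =>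
    (show {y : X.X | g ≠ 0 ∧ coheight y = 1 ∧ od g y + (0 : X.X → ℚ) y ≠ 0}.Finite from by
      by_cases g0 : g = 0
      · simp [g0]
      · exact (fs_zero.fin g0).subset fun y a => a.2)).subset fun y a => ?_
  obtain ⟨g, b, c⟩ := h.gen y trivial
  refine mem_biUnion (show g ∈ (s : Set X.K) from b) ⟨c.1, a.1, fun e => a.2 ?_⟩
  have := c.2 y a.1 specializes_rfl
  rw [Pi.zero_apply, add_zero] at e
  rwa [e, zero_add] at this

theorem sys_of (hD : Fs D) (h : ∀ x, Fr D x) : ∃ t, Sys ⊤ D t := by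
  classical
  choose τ a b using h
  obtain ⟨T, hT⟩ := cover (⊤ : X.X.Opens) (fun x => {p | Gn D (τ x) p}) (fun x => hD.isOpen _)
    fun x _ => ⟨x, b x⟩
  refine ⟨T.image τ, fun g hg p _ => ?_, fun p hp => ?_⟩
  · obtain ⟨y, -, rfl⟩ := Finset.mem_image.1 hg
    exact a y p
  · obtain ⟨y, c, d⟩ := hT p hp
    exact ⟨_, Finset.mem_image_of_mem _ c, d⟩

theorem ext (hD : Fs D) (h : Sys W D s) {a : X.K} (ha : ∀ p, Sc H a p) (a0 : a ≠ 0)
    (e : ∀ p, p ∈ W ↔ Gn H a p) : ∃ j : ℕ, ∀ n : ℕ, j ≤ n → ∀ x ∈ W, Fr (D + (n : ℚ) • H) x := by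
  classical
  have k : ∀ g : X.K, ∃ N : ℕ, g ∈ s → ∀ n : ℕ, N ≤ n → ∀ p, Sc (D + (n : ℚ) • H) (g * a ^ n) p :=
    fun g => by
      by_cases c : g ∈ s
      · obtain ⟨N, hN⟩ := ext_sec (W := ⊤) (f := g) hD a0 (fun p _ => ha p) fun p _ b =>
          h.sec g c p ((e p).2 b)
        exact ⟨N, fun _ n hn p => hN n hn p trivial⟩
      · exact ⟨0, fun d => absurd d c⟩
  choose N hN using k
  refine ⟨s.sup N, fun n hn x hx => ?_⟩
  obtain ⟨g, b, c⟩ := h.gen x hx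
  exact ⟨_, hN g b n ((Finset.le_sup b).trans hn), c.mul (((e x).1 hx).pow n)⟩

end G54

open G54 in
/-- **GLB** -/
theorem glb54 : GLB := by
  classical
  intro X Z f q A s t' hq hf hA hs ht
  have gq : ∀ (x : Pt X.X) ρ, GenAt t' ρ (x.map f) → GenAt (t'.image q) (q ρ) x := fun x ρ h =>
    ⟨Finset.mem_image_of_mem _ h.1, (map_ne_zero q).2 h.2.1, fun g hg => by
      obtain ⟨b, hb, rfl⟩ := Finset.mem_image.1 hg
      rw [← map_div₀]
      exact hq.reg (h.2.2 b hb)⟩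
  have bq : Bpf (t'.image q) ⊤ := fun x _ =>
    let ⟨ρ, h⟩ := ht.1 (Pt.map f x) trivial; ⟨_, gq x ρ h⟩
  obtain ⟨S, hS⟩ := exists_sys hs
  obtain ⟨H, hH⟩ := exists_sys bq
  have fA : Fs (ex A) := (hf.image Subtype.val).subset fun y a =>
    ⟨⟨y, a.1⟩, fun b => a.2 ((ex_apply ⟨y, a.1⟩).trans b), rfl⟩
  have fS := fs_of hS
  have fH := fs_of hH
  have rH : ∀ x, Fr H x := fun x =>
    let ⟨g, a, b⟩ := hH.gen x trivial; ⟨g, fun p => hH.sec g a p trivial, b⟩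
  have loc : ∀ x : X.X, ∃ (W : X.X.Opens) (m c b : ℕ), x ∈ W ∧ 0 < m ∧ ∀ p ∈ W,
      Fr ((m : ℚ) • ex A + (b : ℚ) • H) p ∧ Fr (-S + (c : ℚ) • (m : ℚ) • ex A + (b : ℚ) • H) p := by
    intro x
    obtain ⟨k, a, U, k0, hU, xU, -, sa, na⟩ := ht.2 ⊤ (Pt.map f x) trivial
    have gp : ∀ p : Pt X.X, ∃ ρ, GenAt t' ρ (p.map f) ∧ Gn ((k : ℚ) • H) (q ρ ^ k) p := fun p =>
      let ⟨ρ, h⟩ := ht.1 (Pt.map f p) trivial; ⟨ρ, h, ((gq p ρ h).gn hH trivial).pow k⟩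
    have sc : ∀ p, Sc ((k : ℚ) • H) (q a) p := fun p => by
      obtain ⟨ρ, h, g⟩ := gp p
      have r := hq.reg (sa _ trivial ρ h)
      rw [map_div₀, map_pow] at r
      have := g.sc.loc r
      rwa [div_mul_cancel₀ _ g.1] at this
    have e : ∀ p, p ∈ f ⁻¹ᵁ U ↔ Gn ((k : ℚ) • H) (q a) p := fun p => by
      obtain ⟨ρ, h, g⟩ := gp p
      have u := hq.un (sa _ trivial ρ h)
      rw [map_div₀, map_pow] at u
      refine (na (Pt.map f p)).trans ⟨fun n => g.of_un (u.2 (n ρ h)), fun n ρ' h' => ?_⟩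
      have v := (u.1 (un_div (nrm X) g n)).mul (Gl.Amz.un_pow (h'.un h) k)
      rwa [div_pow, div_mul_div_cancel₀ (pow_ne_zero _ h.2.1)] at v
    have a0 := ((e x).1 xU).1
    obtain ⟨m, s1, m0, h1⟩ := (amp_of hA hU).va (str X) (nrm X)
    obtain ⟨c, s2, h2⟩ := h1.rep (nrm X) fS.neg fun p _ =>
      let ⟨g, _, b⟩ := hS.gen p trivial; ⟨_, b.inv⟩
    obtain ⟨j1, e1⟩ := G54.ext (fA.smul _) h1.sys sc a0 e
    obtain ⟨j2, e2⟩ := G54.ext (fS.neg.add ((fA.smul _).smul _)) h2 sc a0 e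
    refine ⟨f ⁻¹ᵁ U, m, c, (j1 + j2) * k, xU, m0, fun p hp => ⟨?_, ?_⟩⟩
    · rw [Nat.cast_mul, ← smul_smul]
      exact e1 _ (Nat.le_add_right _ _) p hp
    · rw [Nat.cast_mul, ← smul_smul]
      exact e2 _ (Nat.le_add_left _ _) p hp
  choose W m c b xW m0 hW using loc
  obtain ⟨T, hT⟩ := cover (⊤ : X.X.Opens) (fun x => W x) (fun x => (W x).isOpen)
    fun x _ => ⟨x, xW x⟩
  let M := ∏ x ∈ T, m x
  have M0 : 0 < M := Finset.prod_pos fun x _ => m0 x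
  let N := M * (T.sup c + 2)
  let B := T.sup b * (N + 1)
  have all : ∀ p, Fr ((N : ℚ) • ex A + -S + (B : ℚ) • H) p := fun p => by
    obtain ⟨y, a, d⟩ := hT p trivial
    obtain ⟨r, hr⟩ : m y ∣ M := Finset.dvd_prod_of_mem m a
    have r0 : 0 < r := Nat.pos_of_mul_pos_left (hr ▸ M0)
    have c1 : c y ≤ r * (T.sup c + 2) :=
      ((Finset.le_sup a).trans (Nat.le_add_right _ 2)).trans (Nat.le_mul_of_pos_left _ r0)
    obtain ⟨i, hi⟩ := Nat.exists_eq_add_of_le c1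
    have n1 : N = m y * (c y + i) := by rw [← hi, ← mul_assoc, ← hr]
    have c2 : b y * (i + 1) ≤ B := Nat.mul_le_mul (Finset.le_sup a) (Nat.succ_le_succ (by
      rw [n1]
      exact (Nat.le_add_left i (c y)).trans (Nat.le_mul_of_pos_left _ (m0 y))))
    obtain ⟨l, hl⟩ := Nat.exists_eq_add_of_le c2
    have := ((hW y p d).2.add ((hW y p d).1.pow i)).add ((rH p).pow l)
    convert this using 1
    rw [n1, hl]
    push_cast
    module
  obtain ⟨t, h⟩ := sys_of (((fA.smul _).add fS.neg).add (fH.smul _)) all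
  refine ⟨N, 1, B, t, (Nat.le_add_left 2 _).trans (Nat.le_mul_of_pos_left _ M0), one_pos, bpf_of h,
    fun x τ σ ρ u v w => ?_⟩
  have := ((u.gn h trivial).mul (v.gn hS trivial)).mul (((gq x ρ w).gn hH trivial).pow B).inv
  rw [localEq_iff, inv_div, pow_one, div_eq_mul_inv]
  convert this using 1
  abel

end Vale.Agent.P283R.Ft
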