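import Vale.Agent.P283R.Ft.St
import Vale.Agent.P283R.To.GlSum

/-!
# P283R, block FT: the descent of the Fano type (row `GLU`)
-/

open Set CategoryTheory AlgebraicGeometry

noncomputable section

namespace Vale.Agent.P283R.Ft

open Vale.Agent.P287D Vale.Agent.P297Z
open Vale.Agent.P289 (Pt St toRat val DForm dimension)
open Vale.Agent.P283M Vale.Agent.P283M.Stm Vale.Agent.P283M.Stm.Var
open Vale.Agent.P283M.Br (GenAt Bpf har frm ffd reg_gen)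
open Vale.Agent.P283R.Gl (pq pq_is pq_ord open_gen amz)
open Vale.Agent.P283R.Et (Pe)

namespace G79

variable {X Y Z : Var} {g : X.X ⟶ Y.X} {h : Y.X ⟶ Z.X} {p : Y.K →+* X.K} {q : Z.K →+* Y.K}
  {a b : X.K} {t : Finset X.K} {x x' : Pt X.X}

theorem om (E : X.PrimeDiv) (ha : a ≠ 0) (hb : b ≠ 0) :
    (ord (a * b) E : ℚ) = ord a E + ord b E := by
  rw [pq_ord, pq_ord, pq_ord, Pl.ord_mul _ ha hb, Int.cast_add]

theorem oq (E : X.PrimeDiv) (ha : a ≠ 0) (hb : b ≠ 0) :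
    (ord (a / b) E : ℚ) = ord a E - ord b E := by
  rw [pq_ord, pq_ord, pq_ord, Pl.ord_div _ ha hb, Int.cast_sub]

theorem op (E : X.PrimeDiv) (a : X.K) (n : ℕ) : (ord (a ^ n) E : ℚ) = n * ord a E := by
  rw [pq_ord, pq_ord, Pl.ord_pow, Int.cast_mul, Int.cast_natCast]

theorem pe_comp (hp : Pe g p) (hq : Pe h q) : Pe (g ≫ h) (p.comp q) := fun y a =>
  (congrArg p (hq (y.map g) a)).trans ((hp y _).trans (congrArg toRat
    (congrArg (fun φ => φ.hom a) (Scheme.Hom.stalkMap_comp g h y)).symm))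

theorem gen (k : GenAt t a x) (s : x' ⤳ x) : GenAt t a x' :=
  ⟨k.1, k.2.1, fun c hc => reg_gen s (k.2.2 c hc)⟩

theorem pull [DecidableEq X.K] (hp : Pe g p) {s : Finset Y.K} {σ : Y.K}
    (k : GenAt s σ (x.map g)) : GenAt (s.image p) (p σ) x :=
  ⟨Finset.mem_image_of_mem _ k.1, (map_ne_zero p).2 k.2.1, fun b hb => by
    obtain ⟨c, hc, rfl⟩ := Finset.mem_image.1 hb
    exact map_div₀ p c σ ▸ hp.reg (k.2.2 c hc)⟩

theorem lift (hg : Contraction g) (hp : Pe g p) (F : Y.PrimeDiv) : ∃ (E : X.PrimeDiv) (e : ℚ),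
    0 < e ∧ E.1.map g = F.1 ∧ ∀ c, (ord (p c) E : ℚ) = e * ord c F := by
  obtain ⟨up, dn⟩ := Cf.prm X Y g p hg hp
  obtain ⟨P, ⟨E, hE⟩, l⟩ := up (pq F) ⟨F, (pq_is F).dom⟩
  refine ⟨E, P.ord (p (pq F).t), by exact_mod_cast l.e_pos,
    Cf.Dw.uq (dn P _ hE _ l) (pq_is F).dom, fun c => ?_⟩
  rw [pq_ord, pq_ord, Br.pl_eq (pq_is E) hE, l.ord, Int.cast_mul]

end G79

open G79 in
/-- **GLU** -/
theorem glu79 : GLU := by
  classical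
  intro amp glb ber X Y Z g h p d r ω η hg hp hs hd hdim hω hη tw ⟨C, hC, am⟩
  obtain ⟨n, rfl⟩ := Nat.exists_eq_add_of_le' hd
  obtain ⟨q, hq⟩ := Cf.Fto.exists_pe h
  obtain ⟨s, hS⟩ := amz Y
  obtain ⟨s', hS'⟩ := amz Z
  have hK := ffd X _ hdim
  obtain ⟨j, -, fr⟩ := frm X _ hK ω hω
  have p0 : ∀ {c}, c ≠ 0 → p c ≠ 0 := fun k => (map_ne_zero p).2 k
  have q0 : ∀ {c}, c ≠ 0 → q c ≠ 0 := fun k => (map_ne_zero q).2 k
  obtain ⟨N, a, b, t, N2, a0, bt, ht⟩ := glb X Z (g ≫ h) (p.comp q) _ (s.image p) s'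
    (pe_comp hp hq) (((Cf.Dw.form_fin' (by omega) hK fr).union C.support.finite_toSet).subset
      fun E hE => by_contra fun k => hE (by
        rw [mem_union, not_or, mem_ofPred, not_not, Finset.mem_coe, Finsupp.notMem_support_iff]
          at k
        rw [Pi.neg_apply, logCan, k.1, k.2, Int.cast_zero, add_zero, neg_zero])) am
    (fun x _ => let ⟨σ, k⟩ := hS.1 (g x) trivial; ⟨_, pull hp k⟩) hS'
  obtain ⟨φ, B, ε, w, φ0, ε0, w0, hB, hw, eB⟩ :=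
    ber X _ N ω C t (by omega) hdim hω hC bt N2
  have N0 : (N : ℚ) ≠ 0 := Nat.cast_ne_zero.2 (by omega)
  have u0 : ∀ {σ ρ}, σ ≠ 0 → ρ ≠ 0 → σ ^ a / q ρ ^ b ≠ 0 := fun k k' =>
    div_ne_zero (pow_ne_zero _ k) (pow_ne_zero _ (q0 k'))
  have L : ∀ (x : Pt X.X) σ ρ, GenAt s σ (x.map g) → GenAt s' ρ ((x.map g).map h) →
      LocalEq (logCan ω B) N (φ * p (σ ^ a / q ρ ^ b)) x := fun x σ ρ k k' =>
    ⟨mul_ne_zero φ0 (p0 (u0 k.2.1 k'.2.1)), fun E hE => by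
      obtain ⟨τ, hτ⟩ := bt x trivial
      have e := (ht x τ _ ρ hτ (pull hp k) k').2 E hE
      have r0 := pow_ne_zero b (p0 (q0 k'.2.1))
      have s0 := pow_ne_zero a (p0 k.2.1)
      rw [RingHom.comp_apply, oq E r0 (mul_ne_zero hτ.2.1 s0), om E hτ.2.1 s0, Pi.neg_apply,
        logCan] at e
      rw [om E φ0 (p0 (u0 k.2.1 k'.2.1)), map_div₀, map_pow, map_pow, oq E s0 r0, logCan,
        eB E τ (gen hτ hE), oq E φ0 hτ.2.1, ← add_assoc, mul_add, mul_div_cancel₀ _ N0]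
      linarith⟩
  obtain ⟨R, M, ε', -, -, ε1, H⟩ := Cf.dwn r w ε w0 ε0
  obtain ⟨Δ, hΔ, -, ⟨M₁, θ, M0, θ0, hP⟩, -⟩ := H X Y g p hg hp (n + 1) ω η B hd hdim hω hη hB hw
    (fun y => by
      obtain ⟨σ, k⟩ := hS.1 y trivial
      obtain ⟨ρ, k'⟩ := hS'.1 (y.map h) trivial
      exact ⟨N, _, by omega, fun x e => L x σ ρ (e ▸ k) (e ▸ k')⟩) tw
  have hk : FF Y.K (n + 1) := by
    let _ := p.toAlgebra
    have : IsScalarTower ℂ Y.K X.K := .of_algebraMap_eq fun c => (hp.cst hg.1 c).symm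
    obtain ⟨_, _, _, -, -, -, T⟩ := Cf.tow r w ε w0 ε0
    exact (T Y.K X.K _ _ hd tw).1
  obtain ⟨j', -, fr'⟩ := frm Y _ hk η hη
  let y₀ : Pt Y.X := genericPoint Y.X
  obtain ⟨m₀, c₀, m0, hc⟩ := hΔ.2.1 y₀ trivial
  obtain ⟨σ₀, k₀⟩ := hS.1 y₀ trivial
  obtain ⟨ρ₀, k₁⟩ := hS'.1 (y₀.map h) trivial
  have v0 := u0 k₀.2.1 k₁.2.1
  have n1 := pow_ne_zero N (mul_ne_zero (pow_ne_zero m₀ θ0) (pow_ne_zero M₁ (p0 hc.1)))
  have n2 := pow_ne_zero (M₁ * m₀) (mul_ne_zero φ0 (p0 v0))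
  obtain ⟨c, ec⟩ := Cf.Cht.down hg hp (y := y₀) (V := ⟨_, ((Br.open_localEq hk fr' Δ m₀ c₀).inter
      (open_gen s σ₀)).inter ((open_gen s' ρ₀).preimage h.continuous)⟩) ⟨⟨hc, k₀⟩, k₁⟩
    (u := (θ ^ m₀ * p c₀ ^ M₁) ^ N / (φ * p (σ₀ ^ a / q ρ₀ ^ b)) ^ (M₁ * m₀))
    fun x hx => har X _ _ fun E hE => by
      have e1 := (hP x _ _ hx.1.1).2 E hE
      have e2 := (L x _ _ hx.1.2 hx.2).2 E hE
      have e3 := oq E n1 n2
      rw [op, op, e1, e2] at e3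
      exact Int.cast_nonneg_iff.1 (e3.trans (show _ = (0 : ℚ) by ring)).ge
  have c0 : c ≠ 0 := fun e => div_ne_zero n1 n2 (by rw [← ec, e, map_zero])
  have t0 : c * (σ₀ ^ a / q ρ₀ ^ b) ^ (M₁ * m₀) / c₀ ^ (M₁ * N) ≠ 0 :=
    div_ne_zero (mul_ne_zero c0 (pow_ne_zero _ v0)) (pow_ne_zero _ hc.1)
  refine ⟨Δ, ⟨hΔ.1, hΔ.2.1, fun A E i m f k l => ε1.trans_le (hΔ.2.2 A E i m f k l)⟩,
    amp Y Z h q s s' _ (M₁ * m₀ * N) (a * (M₁ * m₀)) (b * (M₁ * m₀))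
      (c * (σ₀ ^ a / q ρ₀ ^ b) ^ (M₁ * m₀) / c₀ ^ (M₁ * N)) hq hS hS'.1 (by positivity)
      (by positivity) fun y σ ρ k k' => ?_⟩
  have r0 := pow_ne_zero (b * (M₁ * m₀)) (q0 k'.2.1)
  have s0 := pow_ne_zero (a * (M₁ * m₀)) k.2.1
  refine ⟨div_ne_zero (mul_ne_zero t0 r0) s0, fun F hF => ?_⟩
  obtain ⟨E, e, e0, eE, o⟩ := lift hg hp F
  obtain ⟨m, f, m1, hf⟩ := hΔ.2.1 F.1 trivial
  have e1 := (hP E.1 m f (eE ▸ hf)).2 E specializes_rfl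
  have e2 := (L E.1 σ ρ (eE ▸ gen k hF) (eE ▸ gen k' (hF.map h.continuous))).2 E specializes_rfl
  have e3 := oq E n1 n2
  have e4 := hf.2 F specializes_rfl
  rw [om E (pow_ne_zero _ θ0) (pow_ne_zero _ (p0 hf.1)), op, op, o, e4] at e1
  rw [om E φ0 (p0 (u0 k.2.1 k'.2.1)), o, oq F (pow_ne_zero _ k.2.1) (pow_ne_zero _ (q0 k'.2.1)),
    op, op] at e2
  rw [← ec, o, op, op, om E (pow_ne_zero _ θ0) (pow_ne_zero _ (p0 hc.1)), om E φ0 (p0 v0), op, op,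
    o, o] at e3
  rw [oq F (mul_ne_zero t0 r0) s0, om F t0 r0, oq F (mul_ne_zero c0 (pow_ne_zero _ v0))
    (pow_ne_zero _ hc.1), om F c0 (pow_ne_zero _ v0), op, op, op, op, Pi.neg_apply]
  have m2 : (m : ℚ) ≠ 0 := Nat.cast_ne_zero.2 m1.ne'
  have e5 : (ord θ E : ℚ) + M₁ * (e * logCan η Δ F) = M₁ * logCan ω B E :=
    mul_left_cancel₀ m2 (by push_cast at e1; linarith)
  refine mul_left_cancel₀ e0.ne' ?_
  push_cast at e3 ⊢
  linear_combination e3 + (m₀ * N : ℚ) * e5 - (M₁ * m₀ : ℚ) * e2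

end Vale.Agent.P283R.Ft
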