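import Vale.Agent.P283R.Ft.St2
import Vale.Agent.P283R.Ft.All
import Vale.Agent.P283R.Sl.Cm

/-!
# P283R, block FT: towers over a class
-/

open CategoryTheory AlgebraicGeometry

namespace Vale.Agent.P283R.Sl

open Var

variable {X X' Y W : Var} {g : X.X ⟶ Y.X} {h : Y.X ⟶ W.X} {π : X'.X ⟶ X.X}

theorem Tower.ctr (c : Tower g) : Contraction g := by
  induction c with
  | one a _ => exact a
  | comp _ _ a b => exact a.comp b
  | small _ a _ _ _ b => exact a.of_comp b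

open P283M.Br in
/-- towers of conics descend along small contractions -/
theorem ConicTower.small {p : Iso X X'} (hp : IsPull π p) (s : Surjective g)
    (sm : ∀ E : X'.PrimeDiv, (E.1.map π).CodimOne) (t : ConicTower (π ≫ g)) : ConicTower g := by
  obtain ⟨r, hr, c⟩ := t
  obtain ⟨r₀, h₀⟩ := Cf.Fto.exists_pe (X := X.o) (Y := Y.o) g
  have pe : Et.Pe (W := X'.o) (Z := X.o) π (p : X.K →+* X'.K) := hp
  have e : r = (p : X.K →+* X'.K).comp r₀ :=
    IsFractionRing.ringHom_ext (A := St Y.X ((generic X'.X).map (π ≫ g))) fun a =>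
      (hr _ a).trans (Ft.G58.pe_comp pe h₀ _ a).symm
  have k : Relation.ReflTransGen (ConicStep X) (r.fieldRange.map (p.symm : X'.K →+* X.K))
      (Subfield.map (p.symm : X'.K →+* X.K) ⊤) :=
    c.lift (Subfield.map (p.symm : X'.K →+* X.K)) fun F F' u => by
      refine ⟨Cf.Aut.map_con _ u.1, fun O o1 ⟨_, ⟨a, ha, rfl⟩, o2⟩ => ?_⟩
      obtain ⟨E, hE⟩ := u.2 (O.comap (p.symm : X'.K →+* X.K)) (fun a ha => o1 _ ⟨a, ha, rfl⟩)
        ⟨a, ha, o2⟩
      refine ⟨⟨_, sm E⟩, ?_⟩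
      rintro _ ⟨b, hb, rfl⟩
      obtain ⟨b, rfl⟩ := p.surjective b
      obtain ⟨P, i, -⟩ := pl_of (X := X.o) plc ⟨_, sm E⟩
      refine (hE _ hb).trans ?_
      rw [RingHom.coe_coe, p.symm_apply_apply]
      refine ⟨fun z => by_contra fun n => ?_, fun z => pe.reg z⟩
      have b0 : b ≠ 0 := fun o => n ((i b).1 (o ▸ zero_mem _))
      have v : RegAt b⁻¹ (E.1.map π) :=
        (i _).1 ((P.ring.mem_or_inv_mem b).resolve_left fun o => n ((i b).1 o))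
      have y : (p b⁻¹)⁻¹ = p b := by rw [map_inv₀, inv_inv]
      exact n (inv_inv b ▸ ((pe.un v).1
        ⟨(map_ne_zero _).2 (inv_ne_zero b0), pe.reg v, (y ▸ z : RegAt (p b⁻¹)⁻¹ E.1)⟩).2.2)
  rw [RingHom.map_fieldRange, ← RingHom.fieldRange_eq_map,
    (RingHom.fieldRange_eq_top_iff (f := (p.symm : X'.K →+* X.K))).2 p.symm.surjective, e, ← RingHom.comp_assoc,
    RingEquiv.symm_comp, RingHom.id_comp] at k
  exact ⟨r₀, h₀, k⟩

theorem Tower.tower (F : Ft.FTA) (c : Tower g) : ∀ (W : Var) (h : Y.X ⟶ W.X) (d e : ℕ)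
    (ω : X.Form d), Surjective h → dimension X.str = d → dimension Y.str = e → 1 ≤ e →
      ω.Nonzero → FanoType (g ≫ h) ω → ConicTower g := by
  induction c with
  | one a i =>
    intro W h d e ω _ hd he _ b ft
    rw [hd, he] at i
    exact tower_le a hd he (by exact_mod_cast i) b ft
  | @comp X Y T g k c c' i i' =>
    intro W h d e ω s hd he e1 b ft
    obtain ⟨m, η, hm, η0⟩ := exists_form Y
    have m1 := e1.trans (c'.ctr.dim_le hm he)
    have := c'.ctr.2.2.1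
    rw [Category.assoc] at ft
    have t := i W (k ≫ h) d m ω inferInstance hd hm m1 b ft
    exact Cf.aut_comp c.ctr t
      (i' W h m e η s hm he e1 η0 (fano_down Ft.ftd c.ctr t inferInstance hd hm m1 b η0 ft))
  | @small X' X Y π g p a hp sm c i =>
    intro W h d e ω s hd he e1 b ft
    obtain ⟨m, η, hm, η0⟩ := exists_form X'
    obtain rfl : d = m := Nat.cast_injective (hd.symm.trans ((dim_pull a hp).trans hm))
    have cg := a.of_comp c.ctr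
    have := cg.2.2.1
    refine ConicTower.small hp this sm (i W h d e η s hm he e1 η0 ?_)
    rw [Category.assoc]
    exact (fanoType_iff _ η).2 (F X'.o X.o W.o π (g ≫ h) p d ω η a.1 hp sm inferInstance
      (e1.trans (cg.dim_le hd he)) hd hm b η0 ((fanoType_iff _ ω).1 ft))

/-- towers over a class -/
theorem OnN.tower' (F : Ft.FTA)
    {C : ∀ (d : ℕ) (X Z : Var), (X.X ⟶ Z.X) → X.Form d → X.QDiv → Pt Z.X → Prop} (h : OnN C) :
    OnN fun _ X Z f ω B z => ∃ (e : ℕ) (T : Var) (a : X.X ⟶ T.X) (h : T.X ⟶ Z.X) (θ : T.Form e),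
      dimension T.str = e ∧ 1 ≤ e ∧ θ.Nonzero ∧ a ≫ h = f ∧ Tower a ∧ TrivialOver a ω B ∧
      ∀ Δ, C e T Z h θ Δ z := by
  intro d hd ε hε R hR
  obtain ⟨n, hn, H⟩ := h.over d hd ε hε R hR
  refine ⟨n, hn, fun X Z f ω B z a b c i s t u => H X Z f ω B z a b c i s t ⟨u.1, u.2.1, ?_⟩⟩
  obtain ⟨ft, -, e, Y, g, k, η, b2, b1, b3, rfl, b5, b7, b8⟩ := u
  have b6 := b5.ctr.of_comp s
  have w := b5.tower F Z k d e ω b6.2.2.1 a b2 b1 b ft
  exact ⟨e, Y, g, k, η, b1, b2, b3, rfl, b5.ctr, b6, w, b7,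
    fano_down Ft.ftd b5.ctr w b6.2.2.1 a b2 b1 b b3 ft, b8⟩

/-- the same for classes which do not depend on the boundary -/
theorem OnN.tower (F : Ft.FTA) {C : ∀ (d : ℕ) (X Z : Var), (X.X ⟶ Z.X) → X.Form d → Pt Z.X → Prop}
    (h : OnN fun d X Z f ω _ z => C d X Z f ω z) :
    OnN fun _ X Z f ω B z => ∃ (e : ℕ) (T : Var) (a : X.X ⟶ T.X) (h : T.X ⟶ Z.X) (θ : T.Form e),
      dimension T.str = e ∧ 1 ≤ e ∧ θ.Nonzero ∧ a ≫ h = f ∧ Tower a ∧ TrivialOver a ω B ∧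
      C e T Z h θ z :=
  (h.tower' F).mono fun _ _ _ _ _ _ _ ⟨e, Y, g, h, η, b1, b2, b3, b4, b5, b6, u⟩ =>
    ⟨e, Y, g, h, η, b1, b2, b3, b4, b5, b6, fun _ => u⟩

/-- towers over a germ -/
theorem onN_tower (F : Ft.FTA) {S : ℕ → ∀ Z : Var, Pt Z.X → Prop}
    (h : On fun d _ Z f ω B z => Crepant f ω B z ∧ S d Z z) : OnN fun _ _ Z f ω B z =>
    ∃ e : ℕ, dimension Z.str = e ∧ 1 ≤ e ∧ Tower f ∧ TrivialOver f ω B ∧ S e Z z := by
  intro d hd ε hε R hR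
  obtain ⟨n, hn, H⟩ := conic_dim h d hd ε hε R hR
  refine ⟨n, hn, fun X Z f ω B z a b c i s t ⟨ft, _, e, b1, b2, b3, b4, b5⟩ =>
    H X Z f ω B z a b c i s t ⟨?_, b4, e, b1, b2, b5⟩⟩
  exact b3.tower F Z (𝟙 _) d e ω inferInstance a b1 b2 b ((Category.comp_id f).symm ▸ ft)

/-- towers over quotients of complete intersections and over mild points -/
theorem onN_germT (F : Ft.FTA) : OnN fun d _ Z f ω B z =>
    ∃ e : ℕ, dimension Z.str = e ∧ 1 ≤ e ∧ Tower f ∧ TrivialOver f ω B ∧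
      (LciqOr (e = d ∧ SameCoeff f B.coeff 0) Z z ∨ 3 ≤ e ∧ MildCover e (e - 3) Z z) :=
  ((onN_tower F (S := fun e W w => LciqReg W w ∨ 3 ≤ e ∧ MildCover e (e - 3) W w)
    ((Pu.on.or on_cdv).mono fun _ _ _ _ _ _ _ u =>
      u.2.imp (fun v => ⟨u.1, v⟩) fun v => ⟨v.1, u.1, v.2⟩)).or onN_lci0).mono
    fun _ _ _ _ _ _ _ ⟨e, a, b, c, t, u⟩ => by
      rcases u with u | u
      · rcases u.elim with v | ⟨⟨rfl, v⟩, w⟩
        · exact .inl ⟨e, a, b, c, t, .inl v⟩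
        · exact .inr ⟨a, t, v, w⟩
      · exact .inl ⟨e, a, b, c, t, .inr u⟩

/-- the union of the two, after an étale base change -/
theorem literalT_of (F : Ft.FTA)
    {C : ∀ (d : ℕ) (X Z : Var), (X.X ⟶ Z.X) → X.Form d → Pt Z.X → Prop}
    (h : OnN fun d X Z f ω _ z => C d X Z f ω z) :
    ∀ d : ℕ, 1 ≤ d → ∀ ε : ℝ, 0 < ε → ∀ R : Finset ℚ, (∀ r ∈ R, 0 ≤ r ∧ r ≤ 1) →
    ∃ n : ℕ, 1 ≤ n ∧ ∀ (X Z : Var) (f : X.X ⟶ Z.X) (ω : X.Form d) (B : X.QDiv)
      (z : Pt Z.X), dimension X.str = d → ω.Nonzero → Pair (ε ≤ ·) (all X.X) ω B →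
      (∀ y, B.coeff y ≠ 0 → B.coeff y ∈ R) → Contraction f → FanoType f ω →
      NefOver f (-logCan ω B) → z.Closed →
      EtLocal (fun Y W g (η : Y.Form d) D w =>
        (∃ (e : ℕ) (T : Var) (a : Y.X ⟶ T.X) (h : T.X ⟶ W.X) (θ : T.Form e),
          dimension T.str = e ∧ 1 ≤ e ∧ θ.Nonzero ∧ a ≫ h = g ∧ Tower a ∧
          TrivialOver a η D ∧ C e T W h θ w) ∨
        ∃ e : ℕ, dimension W.str = e ∧ 1 ≤ e ∧ Tower g ∧ TrivialOver g η D ∧
          (LciqOr (e = d ∧ SameCoeff g D.coeff 0) W w ∨ 3 ≤ e ∧ MildCover e (e - 3) W w)) f B z →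
      HasKltComplement f ω B n z := fun d hd ε hε R hR =>
  (((h.tower F).or (onN_germT F)).et d hd ε hε R hR).imp
    fun _ H => ⟨H.1, fun X Z f ω B z a b c e s u v t w => H.2 X Z f ω B z a b c e s t ⟨u, v, w⟩⟩

end Vale.Agent.P283R.Sl
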