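import Vale.Agent.P283R.Ft.St
import Vale.Agent.P283R.Sl.Cn
import Vale.Agent.P283R.Sl.Lj

/-!
# P283R, block FT: chains of contractions over a class
-/

open CategoryTheory AlgebraicGeometry

namespace Vale.Agent.P283R.Sl

open Var

variable {X Y W : Var} {g : X.X ⟶ Y.X} {h : Y.X ⟶ W.X}

theorem Contraction.of_comp (a : Contraction g) (b : Contraction (g ≫ h)) : Contraction h := by
  obtain ⟨a1, a2, a3, a4⟩ := a
  obtain ⟨b1, b2, b3, b4⟩ := b
  have e : h ≫ W.str = Y.str := by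
    apply ext_of_isAffine
    have : IsIso g.appTop := a4 ⊤
    rw [← cancel_mono g.appTop, ← Scheme.Hom.comp_appTop, ← Scheme.Hom.comp_appTop, a1,
      ← Category.assoc, b1]
  have s : IsSeparated Y.str := by
    obtain ⟨n, i, h1, h2⟩ := Y.qproj
    have : IsProper (PP.str n) := P289.proper_PP ℂ n
    rw [← h2]
    infer_instance
  have : IsSeparated (h ≫ W.str) := e ▸ s
  have : IsSeparated h := .of_comp h W.str
  have : LocallyOfFiniteType (h ≫ W.str) := e ▸ inferInstance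
  have : LocallyOfFiniteType h := locallyOfFiniteType_of_comp h W.str
  have : UniversallyClosed h := .of_comp_surjective g h
  refine ⟨e, {}, .of_comp g h, fun U => ?_⟩
  have := b4 U
  rw [Scheme.Hom.comp_app] at this
  exact @IsIso.of_isIso_comp_right _ _ _ _ _ _ _ (a4 _) this

theorem Chain.ctr (c : Chain g) : Contraction g := by
  induction c with
  | one a _ => exact a
  | comp _ _ a b => exact a.comp b

theorem Contraction.dim_le (c : Contraction g) {d e : ℕ} (hd : dimension X.str = d)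
    (he : dimension Y.str = e) : e ≤ d := by
  have := c.2.2.1
  obtain ⟨p, hp⟩ := Cf.Fto.exists_pe (X := X.o) (Y := Y.o) g
  let _ := p.toAlgebra
  have : IsScalarTower ℂ Y.o.K X.o.K := .of_algebraMap_eq fun z => (hp.cst c.1 z).symm
  have a : (e : Cardinal) + Algebra.trdeg Y.o.K X.o.K = d :=
    ((congrArg (· + _) he.symm).trans (trdeg_add_eq ℂ Y.o.K (A := X.o.K))).trans hd
  exact Nat.cast_le.1 (le_self_add.trans_eq a)

/-- the base of a tower of conics of Fano type -/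
theorem fano_down (F : Ft.FTD) (c : Contraction g) (t : ConicTower g) (s : Surjective h) {d e : ℕ}
    {ω : X.Form d} {η : Y.Form e} (hd : dimension X.str = d) (he : dimension Y.str = e)
    (e1 : 1 ≤ e) (a : ω.Nonzero) (b : η.Nonzero) (ft : FanoType (g ≫ h) ω) : FanoType h η := by
  obtain ⟨p, hp, tw⟩ := t
  obtain ⟨r, rfl, T⟩ := Cf.adp' g c.1 p hp hd he tw
  exact (fanoType_iff h η).2
    (F X.o Y.o W.o g h p e r ω η c hp s e1 hd a b T ((fanoType_iff _ ω).1 ft))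

theorem Chain.tower (F : Ft.FTD) (c : Chain g) : ∀ (W : Var) (h : Y.X ⟶ W.X) (d e : ℕ)
    (ω : X.Form d), Surjective h → dimension X.str = d → dimension Y.str = e → 1 ≤ e →
      ω.Nonzero → FanoType (g ≫ h) ω → ConicTower g := by
  induction c with
  | one a i =>
    intro W h d e ω _ hd he _ b ft
    rw [hd, he] at i
    exact tower_le a hd he (by exact_mod_cast i) b ft
  | @comp X Y T g k c c' i i' =>
    intro W h d e ω s hd he e1 b ft
    obtain ⟨m, η, hm, η0⟩ := exists_form Y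
    have m1 := e1.trans (c'.ctr.dim_le hm he)
    have := c'.ctr.2.2.1
    rw [Category.assoc] at ft
    have t := i W (k ≫ h) d m ω inferInstance hd hm m1 b ft
    exact Cf.aut_comp c.ctr t
      (i' W h m e η s hm he e1 η0 (fano_down F c.ctr t inferInstance hd hm m1 b η0 ft))

/-- chains over a class -/
theorem OnN.steps' (F : Ft.FTD)
    {C : ∀ (d : ℕ) (X Z : Var), (X.X ⟶ Z.X) → X.Form d → X.QDiv → Pt Z.X → Prop} (h : OnN C) :
    OnN fun _ X Z f ω B z => ∃ (e : ℕ) (T : Var) (a : X.X ⟶ T.X) (h : T.X ⟶ Z.X) (θ : T.Form e),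
      dimension T.str = e ∧ 1 ≤ e ∧ θ.Nonzero ∧ a ≫ h = f ∧ Chain a ∧ TrivialOver a ω B ∧
      ∀ Δ, C e T Z h θ Δ z := by
  intro d hd ε hε R hR
  obtain ⟨n, hn, H⟩ := h.over d hd ε hε R hR
  refine ⟨n, hn, fun X Z f ω B z a b c i s t u => H X Z f ω B z a b c i s t ⟨u.1, u.2.1, ?_⟩⟩
  obtain ⟨ft, -, e, Y, g, k, η, b2, b1, b3, rfl, b5, b7, b8⟩ := u
  have b6 := b5.ctr.of_comp s
  have w := b5.tower F Z k d e ω b6.2.2.1 a b2 b1 b ft
  exact ⟨e, Y, g, k, η, b1, b2, b3, rfl, b5.ctr, b6, w, b7,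
    fano_down F b5.ctr w b6.2.2.1 a b2 b1 b b3 ft, b8⟩

/-- the same for classes which do not depend on the boundary -/
theorem OnN.steps (F : Ft.FTD) {C : ∀ (d : ℕ) (X Z : Var), (X.X ⟶ Z.X) → X.Form d → Pt Z.X → Prop}
    (h : OnN fun d X Z f ω _ z => C d X Z f ω z) :
    OnN fun _ X Z f ω B z => ∃ (e : ℕ) (T : Var) (a : X.X ⟶ T.X) (h : T.X ⟶ Z.X) (θ : T.Form e),
      dimension T.str = e ∧ 1 ≤ e ∧ θ.Nonzero ∧ a ≫ h = f ∧ Chain a ∧ TrivialOver a ω B ∧
      C e T Z h θ z :=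
  (h.steps' F).mono fun _ _ _ _ _ _ _ ⟨e, Y, g, h, η, b1, b2, b3, b4, b5, b6, u⟩ =>
    ⟨e, Y, g, h, η, b1, b2, b3, b4, b5, b6, fun _ => u⟩

/-- chains over a germ -/
theorem onN_steps (F : Ft.FTD) {S : ℕ → ∀ Z : Var, Pt Z.X → Prop}
    (h : On fun d _ Z f ω B z => Crepant f ω B z ∧ S d Z z) : OnN fun _ _ Z f ω B z =>
    ∃ e : ℕ, dimension Z.str = e ∧ 1 ≤ e ∧ Chain f ∧ TrivialOver f ω B ∧ S e Z z := by
  intro d hd ε hε R hR
  obtain ⟨n, hn, H⟩ := conic_dim h d hd ε hε R hR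
  refine ⟨n, hn, fun X Z f ω B z a b c i s t ⟨ft, _, e, b1, b2, b3, b4, b5⟩ =>
    H X Z f ω B z a b c i s t ⟨?_, b4, e, b1, b2, b5⟩⟩
  exact b3.tower F Z (𝟙 _) d e ω inferInstance a b1 b2 b ((Category.comp_id f).symm ▸ ft)

/-- chains over quotients of complete intersections and over mild points -/
theorem onN_germ7 (F : Ft.FTD) : OnN fun d _ Z f ω B z =>
    ∃ e : ℕ, dimension Z.str = e ∧ 1 ≤ e ∧ Chain f ∧ TrivialOver f ω B ∧
      (LciqOr (e = d ∧ SameCoeff f B.coeff 0) Z z ∨ 3 ≤ e ∧ MildCover e (e - 3) Z z) :=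
  ((onN_steps F (S := fun e W w => LciqReg W w ∨ 3 ≤ e ∧ MildCover e (e - 3) W w)
    ((Pu.on.or on_cdv).mono fun _ _ _ _ _ _ _ u =>
      u.2.imp (fun v => ⟨u.1, v⟩) fun v => ⟨v.1, u.1, v.2⟩)).or onN_lci0).mono
    fun _ _ _ _ _ _ _ ⟨e, a, b, c, t, u⟩ => by
      rcases u with u | u
      · rcases u.elim with v | ⟨⟨rfl, v⟩, w⟩
        · exact .inl ⟨e, a, b, c, t, .inl v⟩
        · exact .inr ⟨a, t, v, w⟩
      · exact .inl ⟨e, a, b, c, t, .inr u⟩

/-- the union of the two, after an étale base change -/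
theorem literal_of (F : Ft.FTD) {C : ∀ (d : ℕ) (X Z : Var), (X.X ⟶ Z.X) → X.Form d → Pt Z.X → Prop}
    (h : OnN fun d X Z f ω _ z => C d X Z f ω z) :
    ∀ d : ℕ, 1 ≤ d → ∀ ε : ℝ, 0 < ε → ∀ R : Finset ℚ, (∀ r ∈ R, 0 ≤ r ∧ r ≤ 1) →
    ∃ n : ℕ, 1 ≤ n ∧ ∀ (X Z : Var) (f : X.X ⟶ Z.X) (ω : X.Form d) (B : X.QDiv)
      (z : Pt Z.X), dimension X.str = d → ω.Nonzero → Pair (ε ≤ ·) (all X.X) ω B →
      (∀ y, B.coeff y ≠ 0 → B.coeff y ∈ R) → Contraction f → FanoType f ω →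
      NefOver f (-logCan ω B) → z.Closed →
      EtLocal (fun Y W g (η : Y.Form d) D w =>
        (∃ (e : ℕ) (T : Var) (a : Y.X ⟶ T.X) (h : T.X ⟶ W.X) (θ : T.Form e),
          dimension T.str = e ∧ 1 ≤ e ∧ θ.Nonzero ∧ a ≫ h = g ∧ Chain a ∧
          TrivialOver a η D ∧ C e T W h θ w) ∨
        ∃ e : ℕ, dimension W.str = e ∧ 1 ≤ e ∧ Chain g ∧ TrivialOver g η D ∧
          (LciqOr (e = d ∧ SameCoeff g D.coeff 0) W w ∨ 3 ≤ e ∧ MildCover e (e - 3) W w)) f B z →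
      HasKltComplement f ω B n z := fun d hd ε hε R hR =>
  (((h.steps F).or (onN_germ7 F)).et d hd ε hε R hR).imp
    fun _ H => ⟨H.1, fun X Z f ω B z a b c e s u v t w => H.2 X Z f ω B z a b c e s t ⟨u, v, w⟩⟩

end Vale.Agent.P283R.Sl
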