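import Vale.Agent.P283R.Cf.Ov1
import Vale.Agent.P283R.To.GlAmz

/-!
# P283R, block FT: the base of a tower of conics of Fano type is of Fano type, the rows
-/

open Set CategoryTheory AlgebraicGeometry

noncomputable section

namespace Vale.Agent.P283R.Ft

open Vale.Agent.P287D
open Vale.Agent.P289 (Pt DForm dimension)
open Vale.Agent.P283M.Stm Vale.Agent.P283M.Stm.Var
open Vale.Agent.P283M.Br (GenAt Bpf)
open Vale.Agent.P283R.Gl (Sct Nv)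
open Vale.Agent.P283R.Et (Pe)

/-- an ample system (it exists by `Gl.amz`) -/
def Am {Z : Var} (t : Finset Z.K) : Prop := Bpf t ⊤ ∧ ∀ (W : Z.X.Opens), ∀ z ∈ W,
  ∃ (k : ℕ) (a : Z.K) (U : Z.X.Opens), 0 < k ∧ IsAffineOpen U ∧ z ∈ U ∧ U ≤ W ∧ Sct t k a ⊤ ∧
    ∀ p, p ∈ U ↔ Nv t k a p

/-- **AMP**: an ample divisor minus a pull back is ample over the base -/
def AMP : Prop := ∀ (Y Z : Var) (h : Y.X ⟶ Z.X) (q : Z.K →+* Y.K) (t : Finset Y.K)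
  (t' : Finset Z.K) (D : Y.PrimeDiv → ℚ) (M a b : ℕ) (θ : Y.K), Pe h q → Am t → Bpf t' ⊤ →
    0 < M → 0 < a → (∀ (y : Pt Y.X) σ ρ, GenAt t σ y → GenAt t' ρ (y.map h) →
      LocalEq D M (θ * q ρ ^ b / σ ^ a) y) → AmpleOver h D

/-- **GLB**: `N A - a S + b f^* H` is free on the whole variety -/
def GLB : Prop := ∀ (X Z : Var) (f : X.X ⟶ Z.X) (q : Z.K →+* X.K) (A : X.PrimeDiv → ℚ)
  (s : Finset X.K) (t' : Finset Z.K), Pe f q → {E | A E ≠ 0}.Finite → AmpleOver f A → Bpf s ⊤ →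
    Am t' → ∃ (N a b : ℕ) (t : Finset X.K), 2 ≤ N ∧ 0 < a ∧ Bpf t ⊤ ∧
      ∀ (x : Pt X.X) τ σ ρ, GenAt t τ x → GenAt s σ x → GenAt t' ρ (x.map f) →
        LocalEq A N (q ρ ^ b / (τ * σ ^ a)) x

/-- **BER**: a general member of a free system is added to a klt boundary -/
def BER : Prop := ∀ (X : Var) (d N : ℕ) (ω : DForm ℂ X.K d) (C : X.QDiv) (t : Finset X.K), 1 ≤ d →
  dimension X.str = d → ω.Nonzero → Pair (0 < ·) ⊤ ω C → Bpf t ⊤ → 2 ≤ N →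
    ∃ (φ : X.K) (C' : X.QDiv) (ε : ℝ) (q : ℕ), φ ≠ 0 ∧ 0 < ε ∧ 0 < q ∧ Pair (ε ≤ ·) ⊤ ω C' ∧
      (∀ E, ∃ z : ℤ, q * C' E = z) ∧
      ∀ (E : X.PrimeDiv) τ, GenAt t τ E.1 → C' E = C E + ord (φ / τ) E / N

/-- **FTD**: the descent -/
def FTD : Prop := ∀ (X Y Z : Var) (g : X.X ⟶ Y.X) (h : Y.X ⟶ Z.X) (p : Y.K →+* X.K) (d r : ℕ)
  (ω : DForm ℂ X.K (d + r)) (η : DForm ℂ Y.K d), Contraction g → Pe g p → Surjective h → 1 ≤ d →
    dimension X.str = (d + r : ℕ) → ω.Nonzero → η.Nonzero →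
    (letI := p.toAlgebra; Cf.Tow d r Y.K X.K (Cf.Pri X)) → FanoType (g ≫ h) ω → FanoType h η

/-- **GLU** -/
def GLU : Prop := AMP → GLB → BER → FTD

end Vale.Agent.P283R.Ft
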