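import Vale.Agent.P283R.Ft.St

/-!
# P283R, block FT: small modifications of varieties of Fano type, the rows
-/

open Set CategoryTheory AlgebraicGeometry

noncomputable section

namespace Vale.Agent.P283R.Ft

open Vale.Agent.P287D
open Vale.Agent.P289 (Pt DForm dimension)
open Vale.Agent.P283M.Stm Vale.Agent.P283M.Stm.Var
open Vale.Agent.P283M.Br (GenAt Bpf)
open Vale.Agent.P283R.Et (Pe)

/-- **BIG**: a relatively ample divisor is big -/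
def BIG : Prop := ∀ (X Z : Var) (f : X.X ⟶ Z.X) (q : Z.K →+* X.K) (A : X.PrimeDiv → ℚ)
  (u : Finset X.K) (t' : Finset Z.K), Pe f q → {E | A E ≠ 0}.Finite → AmpleOver f A → Am t' →
    ∃ (N b : ℕ) (τ : X.K), 0 < N ∧ τ ≠ 0 ∧ ∀ (E : X.PrimeDiv) ρ, GenAt t' ρ (E.1.map f) →
      ∀ σ ∈ u, σ ≠ 0 → 0 ≤ (ord (τ * σ / q ρ ^ b) E : ℚ) + N * A E

/-- **OPN**: klt is an open condition -/
def OPN : Prop := ∀ (X : Var) (d : ℕ) (ω : DForm ℂ X.K d) (C₀ C₁ : X.QDiv), 1 ≤ d →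
  dimension X.str = d → ω.Nonzero → Pair (0 < ·) ⊤ ω C₀ → (∀ E, 0 ≤ C₁ E) →
    (∀ x : Pt X.X, ∃ m g, 0 < m ∧ LocalEq (logCan ω C₁) m g x) →
    ∃ n : ℕ, ∀ C : X.QDiv, (∀ E, (n + 1) * C E = n * C₀ E + C₁ E) → Pair (0 < ·) ⊤ ω C

/-- **CRP**: small birational morphisms are crepant -/
def CRP : Prop := ∀ (X' X : Var) (π : X'.X ⟶ X.X) (p : X.K ≃+* X'.K) (d : ℕ) (ω : DForm ℂ X.K d)
  (ω' : DForm ℂ X'.K d), π ≫ X.str = X'.str → Pe π (p : X.K →+* X'.K) →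
    (∀ E' : X'.PrimeDiv, (E'.1.map π).CodimOne) → 1 ≤ d → dimension X.str = d →
    dimension X'.str = d → ω.Nonzero → ω'.Nonzero →
    ∃ (j : X'.K) (c : X'.PrimeDiv → X.PrimeDiv), j ≠ 0 ∧ Function.Injective c ∧
      (∀ E', (c E').1 = E'.1.map π ∧ (∀ a, ord (p a) E' = ord a (c E')) ∧
        formOrd ω' (RingEquiv.refl _) E' = formOrd ω (RingEquiv.refl _) (c E') + ord j E') ∧
      ∀ (s : ℝ → Prop) (C : X.QDiv) (C' : X'.QDiv), (∀ E', C' E' = C (c E')) →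
        Pair s ⊤ ω C → Pair s ⊤ ω' C'

/-- **FTA**: the ascent -/
def FTA : Prop := ∀ (X' X Z : Var) (π : X'.X ⟶ X.X) (h : X.X ⟶ Z.X) (p : X.K ≃+* X'.K) (d : ℕ)
  (ω : DForm ℂ X.K d) (ω' : DForm ℂ X'.K d), π ≫ X.str = X'.str → Pe π (p : X.K →+* X'.K) →
    (∀ E' : X'.PrimeDiv, (E'.1.map π).CodimOne) → Surjective h → 1 ≤ d → dimension X.str = d →
    dimension X'.str = d → ω.Nonzero → ω'.Nonzero → FanoType h ω → FanoType (π ≫ h) ω'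

/-- **GLA** -/
def GLA : Prop := AMP → GLB → BER → BIG → OPN → CRP → FTA

end Vale.Agent.P283R.Ft
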